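import Vale.Agent.P015.H807.Confine
import Vale.Agent.P015.Cx.Defs
import Mathlib.Analysis.Convex.Topology

/-!
Infinite paths with bounded backtracking relative to a convex set have positive speed.
-/

open Finset Filter Topology

namespace Vale.Agent.P015.H807

open Vale.Agent.P015

/-- The walk formed by a piece of an infinite path. -/
theorem path_walk {D : ℝ} {γ : ℕ → {z : GaussianInt // Prime z}} (hγ : IsInfinitePath D γ)
    (i n : ℕ) : ∃ p : (moatGraph D).Walk (γ i) (γ (i + n)),
      ∀ v ∈ p.support, ∃ l ≤ n, v = γ (i + l) := by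
  induction n with
  | zero =>
    refine ⟨SimpleGraph.Walk.nil, ?_⟩
    intro v hv
    rw [SimpleGraph.Walk.support_nil, List.mem_singleton] at hv
    exact ⟨0, le_rfl, hv⟩
  | succ n ih =>
    obtain ⟨p, hp⟩ := ih
    refine ⟨p.concat (hγ.2 (i + n)), ?_⟩
    intro v hv
    rw [SimpleGraph.Walk.support_concat, List.mem_append,
      List.mem_singleton] at hv
    rcases hv with hv | hv
    · obtain ⟨l, hl, hvl⟩ := hp v hv
      exact ⟨l, by omega, hvl⟩
    · exact ⟨n + 1, le_rfl, hv⟩

/-- Level sets of the distance to a convex set are boundaries of convex sets. -/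
theorem exists_level_set {K : Set ℂ} (hK : Convex ℝ K) (hne : K.Nonempty) {m : ℝ} (hm : 0 ≤ m) :
    ∃ K' : Set ℂ, Convex ℝ K' ∧ ∀ x : ℂ, x ∉ K → m ≤ Metric.infDist x K →
      ∃ q ∈ frontier K', dist x q ≤ Metric.infDist x K - m := by
  have hclne : (closure K).Nonempty := hne.closure
  have hnear : ∀ x : ℂ, ∃ y ∈ closure K, Metric.infDist x K = dist x y := by
    intro x
    obtain ⟨y, hy, hxy⟩ := isClosed_closure.exists_infDist_eq_dist hclne x
    rw [Metric.infDist_closure] at hxy
    exact ⟨y, hy, hxy⟩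
  -- points on the segment towards the nearest point
  have hseg : ∀ x y : ℂ, y ∈ closure K → Metric.infDist x K = dist x y →
      ∀ t : ℝ, 0 ≤ t → t ≤ 1 →
      Metric.infDist (y + (t : ℂ) * (x - y)) K = t * dist x y ∧
      dist x (y + (t : ℂ) * (x - y)) = (1 - t) * dist x y := by
    intro x y hy hxy t ht0 ht1
    have h1 : dist x (y + (t : ℂ) * (x - y)) = (1 - t) * dist x y := by
      rw [dist_eq_norm, dist_eq_norm]
      have : x - (y + (t : ℂ) * (x - y)) = ((1 - t : ℝ) : ℂ) * (x - y) := by push_cast; ring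
      rw [this, norm_mul, Complex.norm_real, Real.norm_of_nonneg (by linarith only [ht1])]
    have h2 : dist (y + (t : ℂ) * (x - y)) y = t * dist x y := by
      rw [dist_eq_norm, dist_eq_norm, add_sub_cancel_left, norm_mul, Complex.norm_real,
        Real.norm_of_nonneg ht0]
    refine ⟨le_antisymm ?_ ?_, h1⟩
    · rw [← h2, ← Metric.infDist_closure]
      exact Metric.infDist_le_dist_of_mem hy
    · have h3 := Metric.infDist_le_infDist_add_dist (s := K) (x := x)
        (y := y + (t : ℂ) * (x - y))
      rw [h1, hxy] at h3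
      linarith only [h3]
  rcases hm.eq_or_lt with hm0 | hm0
  · refine ⟨K, hK, ?_⟩
    intro x hx _
    obtain ⟨y, hy, hxy⟩ := hnear x
    refine ⟨y, ⟨hy, ?_⟩, by rw [hxy, ← hm0, sub_zero]⟩
    intro hint
    by_cases hd : dist x y = 0
    · rw [dist_eq_zero] at hd
      rw [hd] at hx
      exact hx (interior_subset hint)
    · have hd0 : 0 < dist x y := lt_of_le_of_ne dist_nonneg (Ne.symm hd)
      have hcont : Continuous fun t : ℝ => y + (t : ℂ) * (x - y) := by fun_prop
      have hev : ∀ᶠ t : ℝ in 𝓝 0, y + (t : ℂ) * (x - y) ∈ interior K := by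
        apply hcont.continuousAt.eventually_mem
        rw [Complex.ofReal_zero, zero_mul, add_zero]
        exact isOpen_interior.mem_nhds hint
      obtain ⟨ε, hε, hball⟩ := Metric.eventually_nhds_iff.1 hev
      set t : ℝ := min (ε / 2) 1 with ht
      have ht0 : 0 < t := by rw [ht]; positivity
      have ht1 : t ≤ 1 := min_le_right _ _
      have h1 := hball (y := t) (by
        rw [Real.dist_eq, sub_zero, abs_of_pos ht0]
        exact (min_le_left _ _).trans_lt (by linarith only [hε]))
      have h2 := (hseg x y hy hxy t ht0.le ht1).1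
      rw [Metric.infDist_zero_of_mem (interior_subset h1)] at h2
      have h3 : 0 < t * dist x y := by positivity
      linarith only [h2, h3]
  · refine ⟨Metric.thickening m K, hK.thickening m, ?_⟩
    intro x _ hmx
    obtain ⟨y, hy, hxy⟩ := hnear x
    have hd0 : 0 < dist x y := by rw [← hxy]; linarith only [hm0, hmx]
    have hmd : m ≤ dist x y := by rw [← hxy]; exact hmx
    set t : ℝ := m / dist x y with ht
    have ht0 : 0 < t := by positivity
    have ht1 : t ≤ 1 := by rw [ht, div_le_one hd0]; exact hmd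
    have htd : t * dist x y = m := by rw [ht]; field_simp
    obtain ⟨h1, h2⟩ := hseg x y hy hxy t ht0.le ht1
    rw [htd] at h1
    refine ⟨y + (t : ℂ) * (x - y), ⟨?_, ?_⟩, ?_⟩
    · -- in the closure
      have hcont : Continuous fun s : ℝ => y + (s : ℂ) * (x - y) := by fun_prop
      have h3 : Tendsto (fun s : ℝ => y + (s : ℂ) * (x - y)) (𝓝[<] t)
          (𝓝 (y + (t : ℂ) * (x - y))) := hcont.continuousAt.tendsto.mono_left nhdsWithin_le_nhds
      apply mem_closure_of_tendsto h3
      have h4 : ∀ᶠ s : ℝ in 𝓝[<] t, 0 < s :=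
        (eventually_gt_nhds ht0).filter_mono nhdsWithin_le_nhds
      filter_upwards [h4, self_mem_nhdsWithin] with s hs0 hst
      rw [Metric.mem_thickening_iff_infDist_lt hne,
        (hseg x y hy hxy s hs0.le (le_trans (le_of_lt hst) ht1)).1, ← htd]
      exact mul_lt_mul_of_pos_right hst hd0
    · rw [Metric.isOpen_thickening.interior_eq, Metric.mem_thickening_iff_infDist_lt hne, h1]
      exact lt_irrefl _
    · rw [h2, hxy, ← htd]
      linarith only []

/-- **Bounded backtracking.** -/
theorem ballistic (D b : ℝ) : ∃ δ : ℝ, 0 < δ ∧ ∀ K : Set ℂ, Convex ℝ K → K.Nonempty →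
    ∀ γ : ℕ → {z : GaussianInt // Prime z}, IsInfinitePath D γ →
    (∀ n, GaussianInt.toComplex (γ n).1 ∉ K) →
    (∀ i j, i ≤ j → Metric.infDist (GaussianInt.toComplex (γ i).1) K - b ≤
      Metric.infDist (GaussianInt.toComplex (γ j).1) K) →
    ∀ n : ℕ, Metric.infDist (GaussianInt.toComplex (γ 0).1) K + δ * n - 1 - b ≤
      Metric.infDist (GaussianInt.toComplex (γ n).1) K := by
  classical
  obtain ⟨C, hC, hconf⟩ := union_confinement
  have hD1 : 1 ≤ max D 1 := le_max_right _ _
  obtain ⟨k, hk2, hkb⟩ : ∃ k : ℕ, 2 ≤ k ∧ |b| + 1 ≤ Real.exp k := by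
    obtain ⟨k, hk⟩ := exists_nat_gt (|b| + 1)
    refine ⟨k + 2, by omega, ?_⟩
    have h1 := Real.add_one_le_exp ((k + 2 : ℕ) : ℝ)
    push_cast at h1 ⊢
    linarith only [h1, hk]
  have hconf' := hconf (max D 1) hD1 k hk2
  set ρ : ℝ := Real.exp (C * max D 1 ^ C * (k * Real.log k)) with hρ
  have hρ0 : 0 < ρ := Real.exp_pos _
  obtain ⟨N, hN⟩ := exists_nat_gt ((2 * ρ + 1) ^ 2)
  have hN0 : 0 < N := by
    have : (0 : ℝ) < N := lt_of_le_of_lt (by positivity) hN
    exact_mod_cast this
  have hN0R : (0 : ℝ) < N := by exact_mod_cast hN0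
  refine ⟨1 / N, by positivity, ?_⟩
  intro K hK hne γ hγ hout hback
  set F : ℕ → ℝ := fun n => Metric.infDist (GaussianInt.toComplex (γ n).1) K with hF
  have hb0 : 0 ≤ b := by
    have := hback 0 0 le_rfl
    linarith only [this]
  -- progress in `N` steps
  have hprog : ∀ i, ∃ j, j ≤ i + N ∧ i ≤ j ∧ F i + 1 ≤ F j := by
    intro i
    by_contra hcon
    push Not at hcon
    set m : ℝ := max (F i - b) 0 with hm
    obtain ⟨K', hK', hlev⟩ := exists_level_set hK hne (le_max_right (F i - b) 0)
    have hnear : ∀ l ≤ N, ∃ q ∈ frontier K',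
        dist (GaussianInt.toComplex (γ (i + l)).1) q ≤ Real.exp k := by
      intro l hl
      have h1 : F (i + l) < F i + 1 := hcon (i + l) (by omega) (by omega)
      have h2 : F i - b ≤ F (i + l) := hback i (i + l) (by omega)
      have h3 : 0 ≤ F (i + l) := Metric.infDist_nonneg
      obtain ⟨q, hq, hdq⟩ := hlev _ (hout (i + l)) (max_le h2 h3)
      refine ⟨q, hq, hdq.trans ?_⟩
      have h4 : F i - b ≤ max (F i - b) 0 := le_max_left _ _
      have h5 := le_abs_self b
      have h6 : Metric.infDist (GaussianInt.toComplex (γ (i + l)).1) K = F (i + l) := rfl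
      rw [h6]
      linarith only [h1, h4, h5, hkb]
    have hclose : ∀ l ≤ N, dist (GaussianInt.toComplex (γ i).1)
        (GaussianInt.toComplex (γ (i + l)).1) ≤ ρ := by
      intro l hl
      obtain ⟨p, hp⟩ := path_walk hγ i l
      refine hconf' 1 (fun _ => K') (by
        push_cast; exact Real.one_le_exp (Nat.cast_nonneg k)) (fun _ => hK') _ _
        (p.mapLe (moatGraph_mono (le_max_left D 1))) ?_
      intro v hv
      rw [SimpleGraph.Walk.support_mapLe_eq_support] at hv
      obtain ⟨l', hl', rfl⟩ := hp v hv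
      obtain ⟨q, hq, hdq⟩ := hnear l' (hl'.trans hl)
      exact ⟨0, q, hq, hdq⟩
    set X : Finset {z : GaussianInt // Prime z} := (Finset.range N).image (fun l => γ (i + l))
      with hX
    have hXcard : X.card = N := by
      rw [hX, Finset.card_image_of_injective _ (fun a c hac => by
        have := hγ.1 hac
        omega), Finset.card_range]
    have hcount := crude_count X ((γ i).1.re) ((γ i).1.im) ρ hρ0.le (by
      intro v hv
      rw [hX, Finset.mem_image] at hv
      obtain ⟨l, hl, rfl⟩ := hv
      rw [Finset.mem_range] at hl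
      have h1 := hclose l hl.le
      rw [dist_comm, dist_eq_norm] at h1
      have h2 := Complex.abs_re_le_norm (GaussianInt.toComplex (γ (i + l)).1 -
        GaussianInt.toComplex (γ i).1)
      have h3 := Complex.abs_im_le_norm (GaussianInt.toComplex (γ (i + l)).1 -
        GaussianInt.toComplex (γ i).1)
      rw [Complex.sub_re, ← GaussianInt.intCast_re, ← GaussianInt.intCast_re] at h2
      rw [Complex.sub_im, ← GaussianInt.intCast_im, ← GaussianInt.intCast_im] at h3
      exact ⟨h2.trans h1, h3.trans h1⟩)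
    rw [hXcard] at hcount
    linarith only [hcount, hN]
  -- many rounds
  have hrounds : ∀ m : ℕ, ∃ i, i ≤ m * N ∧ F 0 + m ≤ F i := by
    intro m
    induction m with
    | zero => exact ⟨0, by omega, by push_cast; linarith only []⟩
    | succ m ih =>
      obtain ⟨i, hi, hFi⟩ := ih
      obtain ⟨j, hj1, -, hj3⟩ := hprog i
      refine ⟨j, by rw [Nat.succ_mul]; omega, ?_⟩
      push_cast
      linarith only [hFi, hj3]
  intro n
  obtain ⟨i, hi, hFi⟩ := hrounds (n / N)
  have h1 : i ≤ n := hi.trans (Nat.div_mul_le_self n N)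
  have h2 := hback i n h1
  have h3 : (n : ℝ) / N ≤ ((n / N : ℕ) : ℝ) + 1 := by
    rw [div_le_iff₀ hN0R]
    have h4 : n ≤ (n / N + 1) * N := by
      have := Nat.lt_div_mul_add (a := n) hN0
      rw [Nat.add_mul, one_mul]
      omega
    exact_mod_cast h4
  have h5 : 1 / (N : ℝ) * n = n / N := by ring
  rw [h5]
  have h6 : Metric.infDist (GaussianInt.toComplex (γ i).1) K = F i := rfl
  rw [h6] at h2
  have h7 : Metric.infDist (GaussianInt.toComplex (γ 0).1) K = F 0 := rfl
  rw [h7]
  linarith only [h2, h3, hFi]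

end Vale.Agent.P015.H807
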