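import Vale.Agent.P015.H807.Hull

/-!
Walks of `G_D` close to a union of boundaries of convex sets.
-/

open Finset Filter Topology

namespace Vale.Agent.P015.H807

open Vale.Agent.P015

/-- A walk passes all levels of a function with small steps. -/
theorem exists_level {D r : ℝ} (φ : {z : GaussianInt // Prime z} → ℝ)
    (hφ : ∀ a b, (moatGraph D).Adj a b → |φ a - φ b| ≤ D)
    {z w : {z : GaussianInt // Prime z}}
    (p : (moatGraph D).Walk z w) (hz : φ z < r) (hw : r ≤ φ w) :
    ∃ v ∈ p.support, r ≤ φ v ∧ φ v < r + D := by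
  induction p with
  | nil => exact absurd hz (not_lt.2 hw)
  | @cons a b c hab p ih =>
    by_cases hb : φ b < r
    · obtain ⟨v, h1, h2, h3⟩ := ih hb hw
      refine ⟨v, ?_, h2, h3⟩
      rw [SimpleGraph.Walk.support_cons]
      exact List.mem_cons_of_mem _ h1
    · refine ⟨b, ?_, not_lt.1 hb, ?_⟩
      · rw [SimpleGraph.Walk.support_cons]
        exact List.mem_cons_of_mem _ p.start_mem_support
      · have h6 := (abs_le.1 (hφ a b hab)).1
        linarith only [h6, hz]

theorem level_dist {D : ℝ} (z a b : {z : GaussianInt // Prime z})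
    (hab : (moatGraph D).Adj a b) :
    |dist (GaussianInt.toComplex z) (GaussianInt.toComplex a) -
      dist (GaussianInt.toComplex z) (GaussianInt.toComplex b)| ≤ D := by
  have h1 := hab.2
  have h2 := dist_triangle (GaussianInt.toComplex z) (GaussianInt.toComplex a)
    (GaussianInt.toComplex b)
  have h3 := dist_triangle (GaussianInt.toComplex z) (GaussianInt.toComplex b)
    (GaussianInt.toComplex a)
  rw [dist_comm (GaussianInt.toComplex b)] at h3
  rw [abs_le]
  constructor
  · linarith only [h1, h2]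
  · linarith only [h1, h3]

/-- Number of vertices of a walk in a disc about its starting point. -/
theorem many_vertices {D L : ℝ} (hD : 0 < D)
    {z w : {z : GaussianInt // Prime z}} (p : (moatGraph D).Walk z w)
    (hL : L ≤ dist (GaussianInt.toComplex z) (GaussianInt.toComplex w))
    (X : Finset {z : GaussianInt // Prime z})
    (hX : ∀ v ∈ p.support, dist (GaussianInt.toComplex z) (GaussianInt.toComplex v) ≤ L →
      v ∈ X) : L / D - 1 ≤ X.card := by
  classical
  by_cases hL0 : L < 0
  · have h1 : L / D < 0 := div_neg_of_neg_of_pos hL0 hD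
    have h2 : (0 : ℝ) ≤ X.card := Nat.cast_nonneg _
    linarith only [h1, h2]
  push Not at hL0
  set N : ℕ := ⌊L / D⌋₊ with hN
  have hN1 : (N : ℝ) ≤ L / D := Nat.floor_le (by positivity)
  have hN2 : L / D < N + 1 := Nat.lt_floor_add_one _
  rw [le_div_iff₀ hD] at hN1
  have hex : ∀ j : ℕ, j < N → ∃ v ∈ p.support,
      j * D ≤ dist (GaussianInt.toComplex z) (GaussianInt.toComplex v) ∧
      dist (GaussianInt.toComplex z) (GaussianInt.toComplex v) < j * D + D := by
    intro j hj
    have hj1 : ((j : ℝ) + 1) * D ≤ N * D := by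
      apply mul_le_mul_of_nonneg_right _ hD.le
      exact_mod_cast hj
    rcases Nat.eq_zero_or_pos j with h0 | h0
    · refine ⟨z, p.start_mem_support, ?_, ?_⟩
      · rw [h0, dist_self]; simp
      · rw [h0, dist_self]; simpa using hD
    · apply exists_level (fun v => dist (GaussianInt.toComplex z) (GaussianInt.toComplex v))
        (fun a b hab => level_dist z a b hab) p
      · simp only [dist_self]
        have : (0 : ℝ) < j := by exact_mod_cast h0
        positivity
      · linarith only [hj1, hN1, hL, hD]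
  have hinh : Nonempty {z : GaussianInt // Prime z} := ⟨z⟩
  choose! g hg1 hg2 hg3 using hex
  have hcard : (Finset.range N).card ≤ X.card := by
    apply Finset.card_le_card_of_injOn g
    · intro j hj
      rw [Finset.coe_range, Set.mem_Iio] at hj
      refine hX _ (hg1 j hj) ?_
      have hj1 : ((j : ℝ) + 1) * D ≤ N * D := by
        apply mul_le_mul_of_nonneg_right _ hD.le
        exact_mod_cast hj
      linarith only [hg3 j hj, hj1, hN1]
    · intro i hi j hj hij
      rw [Finset.coe_range, Set.mem_Iio] at hi hj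
      have h1 := hg2 i hi
      have h2 := hg3 i hi
      have h3 := hg2 j hj
      have h4 := hg3 j hj
      rw [hij] at h1 h2
      by_contra hne
      rcases lt_or_gt_of_ne hne with h | h
      · have h5 : ((i : ℝ) + 1) * D ≤ j * D := by
          apply mul_le_mul_of_nonneg_right _ hD.le
          exact_mod_cast h
        linarith only [h1, h2, h3, h4, h5]
      · have h5 : ((j : ℝ) + 1) * D ≤ i * D := by
          apply mul_le_mul_of_nonneg_right _ hD.le
          exact_mod_cast h
        linarith only [h1, h2, h3, h4, h5]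
  rw [Finset.card_range] at hcard
  have : (N : ℝ) ≤ X.card := by exact_mod_cast hcard
  linarith only [this, hN2]

/-- Count near one boundary curve, in one frame. -/
theorem frame_starts {D : ℝ} {k B : ℕ} (hD : 1 ≤ D) (hB : StripBound D k B)
    (hBk : 12 * Real.exp k ≤ B) {K : Set ℂ} (hK : Convex ℝ K) (i : Fin 4)
    (z : {z : GaussianInt // Prime z}) {L : ℝ} (m : ℕ) (hm : 2 * L < m * B)
    (X : Finset {z : GaussianInt // Prime z})
    (hX : ∀ v ∈ X, dist (GaussianInt.toComplex z) (GaussianInt.toComplex v) ≤ L ∧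
      (LowerOK K (frame i) ∧ |ch (frame i) (GaussianInt.toComplex v) -
        lowerFun K (frame i) (cs (frame i) (GaussianInt.toComplex v))| ≤ 2 * Real.exp k) ∧
      StartsPath D k v ∧ (B : ℝ) < ‖GaussianInt.toComplex v‖) :
    (X.card : ℝ) ≤ m * ((2 * B) * (Real.exp (-(4 * k)) / (8 * D ^ 2))) + 200 * B ^ 3 := by
  by_cases hOK : LowerOK K (frame i)
  · have hunit := frame_unit i
    apply graph_starts hD hB hBk hunit (lowerFun K (frame i)) (hOK.convexOn hK) hOK.lipschitz
      (cs (frame i) (GaussianInt.toComplex z) - L) m X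
    intro v hv
    obtain ⟨h1, h2, h3, h4⟩ := hX v hv
    have h5 := abs_le.1 (abs_cs_sub_le hunit (GaussianInt.toComplex z) (GaussianInt.toComplex v))
    rw [sco_eq, hco_eq]
    exact ⟨by linarith only [h5.2, h1], by linarith only [h5.1, h1, hm], h2.2, h3, h4⟩
  · have hempty : X = ∅ := by
      rw [Finset.eq_empty_iff_forall_notMem]
      intro v hv
      exact hOK (hX v hv).2.1.1
    rw [hempty, Finset.card_empty]
    have hD0 : 0 < D := by linarith only [hD]
    push_cast
    positivity

theorem final_arith {B D M e N : ℝ} (hB : 400 ≤ B) (hD : 1 ≤ D) (hDB : D ≤ B)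
    (he : 12 * e ≤ B) (he7 : 7 ≤ e) (hM : M ≤ e) (hN1 : B ^ 6 / 2 / D - 1 ≤ N)
    (hN2 : N ≤ (2 * B + 1) ^ 2 + (M * 4) * ((B ^ 5 + 1) * ((2 * B) * ((e ^ 4)⁻¹ / (8 * D ^ 2))) +
      200 * B ^ 3)) : False := by
  have hD0 : 0 < D := by linarith only [hD]
  have hB0 : 0 < B := by linarith only [hB]
  have he0 : 0 < e := by linarith only [he7]
  have h1 : (2 * B + 1) ^ 2 ≤ B ^ 4 := by
    have h2 : (2 * B + 1) ^ 2 ≤ 9 * B ^ 2 := by nlinarith only [hB]
    have h3 : 9 * B ^ 2 ≤ B ^ 2 * B ^ 2 := by
      apply mul_le_mul_of_nonneg_right _ (by positivity)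
      nlinarith only [hB]
    linarith only [h2, h3]
  have h4 : (M * 4) * (200 * B ^ 3) ≤ 67 * B ^ 4 := by
    have h5 : M * 4 ≤ B / 3 := by linarith only [hM, he]
    calc (M * 4) * (200 * B ^ 3) ≤ (B / 3) * (200 * B ^ 3) :=
          mul_le_mul_of_nonneg_right h5 (by positivity)
      _ = 200 / 3 * B ^ 4 := by ring
      _ ≤ 67 * B ^ 4 := by
          apply mul_le_mul_of_nonneg_right _ (by positivity); norm_num
  have h6 : (M * 4) * ((B ^ 5 + 1) * ((2 * B) * ((e ^ 4)⁻¹ / (8 * D ^ 2)))) ≤
      B ^ 6 / 2 / D * (1 / 100) := by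
    have h7 : B ^ 5 + 1 ≤ 3 / 2 * B ^ 5 := by
      have : (1 : ℝ) ≤ B ^ 4 := one_le_pow₀ (by linarith only [hB])
      nlinarith only [this, hB]
    have h8 : (e ^ 4)⁻¹ * e ≤ 1 / 343 := by
      have h9 : (e ^ 4)⁻¹ * e = (e ^ 3)⁻¹ := by field_simp
      rw [h9, one_div]
      apply inv_anti₀ (by norm_num)
      have h10 : (7 : ℝ) ^ 3 ≤ e ^ 3 := pow_le_pow_left₀ (by norm_num) he7 3
      norm_num at h10
      exact h10
    have h11 : (8 * D ^ 2)⁻¹ ≤ (8 * D)⁻¹ := by
      apply inv_anti₀ (by positivity)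
      nlinarith only [hD]
    have h12 : 0 < (e ^ 4)⁻¹ := by positivity
    calc (M * 4) * ((B ^ 5 + 1) * ((2 * B) * ((e ^ 4)⁻¹ / (8 * D ^ 2))))
        ≤ (e * 4) * ((3 / 2 * B ^ 5) * ((2 * B) * ((e ^ 4)⁻¹ / (8 * D ^ 2)))) := by
          apply mul_le_mul (by linarith only [hM]) _ (by positivity) (by positivity)
          exact mul_le_mul_of_nonneg_right h7 (by positivity)
      _ = 12 * B ^ 6 * ((e ^ 4)⁻¹ * e) * (8 * D ^ 2)⁻¹ := by
          rw [div_eq_mul_inv]; ring
      _ ≤ 12 * B ^ 6 * (1 / 343) * (8 * D)⁻¹ := by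
          apply mul_le_mul _ h11 (by positivity) (by positivity)
          exact mul_le_mul_of_nonneg_left h8 (by positivity)
      _ = (B ^ 6 / D) * (3 / 686) := by
          field_simp; norm_num
      _ ≤ B ^ 6 / 2 / D * (1 / 100) := by
          have h13 : B ^ 6 / 2 / D * (1 / 100) = (B ^ 6 / D) * (1 / 200) := by
            field_simp; norm_num
          rw [h13]
          apply mul_le_mul_of_nonneg_left _ (by positivity)
          norm_num
  have h14 : 400 * B ^ 4 ≤ B ^ 6 / D := by
    rw [le_div_iff₀ hD0]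
    calc 400 * B ^ 4 * D ≤ B * B ^ 4 * B := by
          apply mul_le_mul _ hDB hD0.le (by positivity)
          exact mul_le_mul_of_nonneg_right hB (by positivity)
      _ = B ^ 6 := by ring
  have h15 : B ^ 6 / 2 / D = (B ^ 6 / D) / 2 := by field_simp
  have h16 : (1 : ℝ) ≤ B ^ 4 := one_le_pow₀ (by linarith only [hB])
  rw [h15] at hN1 h6
  linarith only [hN1, hN2, h1, h4, h6, h14, h16]

/-- **Confinement along convex curves.** -/
theorem union_confinement : ∃ C : ℝ, 0 < C ∧ ∀ D : ℝ, 1 ≤ D → ∀ k : ℕ, 2 ≤ k →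
    ∀ (M : ℕ) (K : Fin M → Set ℂ), (M : ℝ) ≤ Real.exp k → (∀ j, Convex ℝ (K j)) →
    ∀ (z w : {z : GaussianInt // Prime z}) (p : (moatGraph D).Walk z w),
      (∀ v ∈ p.support, ∃ j, ∃ q ∈ frontier (K j),
        dist (GaussianInt.toComplex v) q ≤ Real.exp k) →
      dist (GaussianInt.toComplex z) (GaussianInt.toComplex w) ≤
        Real.exp (C * D ^ C * (k * Real.log k)) := by
  classical
  obtain ⟨C₁, hC₁, hstrip⟩ := strip_starts
  refine ⟨6 * C₁, by positivity, ?_⟩
  intro D hD k hk M K hM hK z w p hp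
  obtain ⟨B, hBexp, hB400, hBD, hBk, hBkD, hBs⟩ := hstrip D hD k hk
  have hBS : StripBound D k B := hBs
  clear hBs
  have hD0 : 0 < D := by linarith only [hD]
  have hk2 : (2 : ℝ) ≤ k := by exact_mod_cast hk
  have hB400R : (400 : ℝ) ≤ B := by exact_mod_cast hB400
  have hB0 : (0 : ℝ) < B := by linarith only [hB400R]
  have hfinal : (B : ℝ) ^ 6 ≤ Real.exp (6 * C₁ * D ^ (6 * C₁) * (k * Real.log k)) := by
    have h1 : (B : ℝ) ^ 6 ≤ (Real.exp (C₁ * D ^ C₁ * (k * Real.log k))) ^ 6 :=
      pow_le_pow_left₀ hB0.le hBexp 6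
    refine h1.trans ?_
    rw [← Real.exp_nat_mul]
    apply Real.exp_le_exp.2
    have h2 : D ^ C₁ ≤ D ^ (6 * C₁) :=
      Real.rpow_le_rpow_of_exponent_le hD (by linarith only [hC₁])
    have hlogk : 0 ≤ (k : ℝ) * Real.log k := by
      have : 0 ≤ Real.log k := Real.log_nonneg (by linarith only [hk2])
      positivity
    push_cast
    calc 6 * (C₁ * D ^ C₁ * (k * Real.log k)) = 6 * C₁ * D ^ C₁ * (k * Real.log k) := by ring
      _ ≤ 6 * C₁ * D ^ (6 * C₁) * (k * Real.log k) := by
          apply mul_le_mul_of_nonneg_right _ hlogk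
          exact mul_le_mul_of_nonneg_left h2 (by positivity)
  refine le_trans ?_ hfinal
  by_contra hcon
  push Not at hcon
  set L : ℝ := (B : ℝ) ^ 6 / 2 with hL
  -- the vertices near `z`
  set X : Finset {z : GaussianInt // Prime z} := p.support.toFinset.filter
    (fun v => dist (GaussianInt.toComplex z) (GaussianInt.toComplex v) ≤ L) with hXdef
  have hB1 : (1 : ℝ) ≤ B := by linarith only [hB400R]
  have hL0 : 0 < L := by positivity
  have hlow : L / D - 1 ≤ X.card := by
    apply many_vertices hD0 p _ X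
    · intro v hv hvL
      rw [hXdef, Finset.mem_filter, List.mem_toFinset]
      exact ⟨hv, hvL⟩
    · have : L ≤ (B : ℝ) ^ 6 := by rw [hL]; linarith only [pow_pos hB0 6]
      linarith only [this, hcon]
  have hstarts : ∀ v ∈ X, StartsPath D k v := by
    intro v hv
    rw [hXdef, Finset.mem_filter, List.mem_toFinset] at hv
    apply startsPath_of_far hD0 (by omega) (p.dropUntil v hv.1)
    have h1 := dist_triangle (GaussianInt.toComplex z) (GaussianInt.toComplex v)
      (GaussianInt.toComplex w)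
    have h2 : (B : ℝ) ≤ B ^ 6 / 2 := by
      have : (1 : ℝ) ≤ B ^ 4 := one_le_pow₀ hB1
      have h3 : (B : ℝ) ^ 6 = B ^ 4 * (B * B) := by ring
      rw [h3]
      nlinarith only [this, hB400R, mul_pos hB0 hB0]
    linarith only [h1, hv.2, hcon, hBkD, h2, hL]
  set Y : Fin M × Fin 4 → Finset {z : GaussianInt // Prime z} := fun ji => X.filter
    (fun v => (LowerOK (K ji.1) (frame ji.2) ∧ |ch (frame ji.2) (GaussianInt.toComplex v) -
        lowerFun (K ji.1) (frame ji.2) (cs (frame ji.2) (GaussianInt.toComplex v))| ≤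
        2 * Real.exp k) ∧ (B : ℝ) < ‖GaussianInt.toComplex v‖) with hY
  set Z : Finset {z : GaussianInt // Prime z} := X.filter
    (fun v => ‖GaussianInt.toComplex v‖ ≤ B) with hZ
  have hcover : X ⊆ Z ∪ (Finset.univ : Finset (Fin M × Fin 4)).biUnion Y := by
    intro v hv
    rw [Finset.mem_union]
    by_cases hvB : ‖GaussianInt.toComplex v‖ ≤ B
    · left
      rw [hZ, Finset.mem_filter]
      exact ⟨hv, hvB⟩
    · right
      push Not at hvB
      have hv' := hv
      rw [hXdef, Finset.mem_filter, List.mem_toFinset] at hv'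
      obtain ⟨j, q, hq, hvq⟩ := hp v hv'.1
      obtain ⟨i, hi1, hi2⟩ := frontier_cover (hK j) hq
      rw [Finset.mem_biUnion]
      refine ⟨(j, i), Finset.mem_univ _, ?_⟩
      simp only [hY, Finset.mem_filter]
      refine ⟨hv, ⟨hi1, ?_⟩, hvB⟩
      have hunit := frame_unit i
      have h1 := hi1.lipschitz (cs (frame i) q) (cs (frame i) (GaussianInt.toComplex v))
      have h2 := abs_cs_sub_le hunit q (GaussianInt.toComplex v)
      have h3 := abs_ch_sub_le hunit (GaussianInt.toComplex v) q
      rw [dist_comm q] at h2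
      have h4 : ch (frame i) (GaussianInt.toComplex v) -
        lowerFun (K j) (frame i) (cs (frame i) (GaussianInt.toComplex v)) =
        (ch (frame i) (GaussianInt.toComplex v) - ch (frame i) q) +
        (lowerFun (K j) (frame i) (cs (frame i) q) -
        lowerFun (K j) (frame i) (cs (frame i) (GaussianInt.toComplex v))) := by
        rw [hi2]; ring
      rw [h4]
      refine (abs_add_le _ _).trans ?_
      linarith only [h1, h2, h3, hvq]
  have hZcard : (Z.card : ℝ) ≤ (2 * B + 1) ^ 2 := by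
    apply crude_count Z 0 0 B hB0.le
    intro v hv
    rw [hZ, Finset.mem_filter] at hv
    have h1 := Complex.abs_re_le_norm (GaussianInt.toComplex v)
    have h2 := Complex.abs_im_le_norm (GaussianInt.toComplex v)
    rw [← GaussianInt.intCast_re] at h1
    rw [← GaussianInt.intCast_im] at h2
    rw [sub_zero, sub_zero]
    exact ⟨h1.trans hv.2, h2.trans hv.2⟩
  have hYcard : ∀ ji ∈ (Finset.univ : Finset (Fin M × Fin 4)), ((Y ji).card : ℝ) ≤
      ((B : ℝ) ^ 5 + 1) * ((2 * B) * (Real.exp (-(4 * k)) / (8 * D ^ 2))) + 200 * B ^ 3 := by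
    intro ji _
    have h1 := frame_starts hD hBS hBk (hK ji.1) ji.2 z (L := L) (B ^ 5 + 1) (by
      push_cast
      have : ((B : ℝ) ^ 5 + 1) * B = B ^ 6 + B := by ring
      rw [this, hL]
      linarith only [hB0]) (Y ji) (by
      intro v hv
      simp only [hY, Finset.mem_filter] at hv
      have hv' := hv.1
      rw [hXdef, Finset.mem_filter] at hv'
      exact ⟨hv'.2, hv.2.1, hstarts v hv.1, hv.2.2⟩)
    push_cast at h1
    exact h1
  have htotal : (X.card : ℝ) ≤ (2 * B + 1) ^ 2 + ((M : ℝ) * 4) *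
      (((B : ℝ) ^ 5 + 1) * ((2 * B) * (Real.exp (-(4 * k)) / (8 * D ^ 2))) + 200 * B ^ 3) := by
    have h1 : X.card ≤ Z.card + ∑ ji : Fin M × Fin 4, (Y ji).card :=
      (Finset.card_le_card hcover).trans ((Finset.card_union_le _ _).trans
        (add_le_add le_rfl Finset.card_biUnion_le))
    have h2 : (X.card : ℝ) ≤ Z.card + ∑ ji : Fin M × Fin 4, ((Y ji).card : ℝ) := by
      exact_mod_cast h1
    refine h2.trans (add_le_add hZcard ((Finset.sum_le_sum hYcard).trans (le_of_eq ?_)))
    rw [Finset.sum_const, nsmul_eq_mul, Finset.card_univ, Fintype.card_prod, Fintype.card_fin,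
      Fintype.card_fin]
    push_cast
    ring
  have he4 : Real.exp (-(4 * (k : ℝ))) = ((Real.exp k) ^ 4)⁻¹ := by
    rw [Real.exp_neg, ← Real.exp_nat_mul]
    norm_num
  rw [he4] at htotal
  have he7 : (7 : ℝ) ≤ Real.exp k := by
    have h1 : Real.exp 2 ≤ Real.exp k := Real.exp_le_exp.2 hk2
    have h2 : Real.exp 2 = Real.exp 1 ^ 2 := by rw [← Real.exp_nat_mul]; norm_num
    have h3 := Real.exp_one_gt_d9
    rw [h2] at h1
    nlinarith only [h1, h3]
  exact final_arith hB400R hD hBD hBk he7 hM hlow htotal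

end Vale.Agent.P015.H807
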