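import Vale.Agent.P015.H807.Discs

/-!
Every convex curve is a near-moat: few primes of large components lie close to it.
-/

open Finset Filter Topology

namespace Vale.Agent.P015.H807

open Vale.Agent.P015

theorem count_arith {B D e L m : ℝ} (hB : 400 ≤ B) (hD : 1 ≤ D) (hDB : D ≤ B)
    (he : 12 * e ≤ B) (he7 : 7 ≤ e) (hL : B ^ 8 ≤ L) (hm : m ≤ 2 * L / B + 2) :
    (2 * B + 1) ^ 2 + 4 * (m * ((2 * B) * ((e ^ 4)⁻¹ / (8 * D ^ 2))) + 200 * B ^ 3) ≤
      L * (e ^ 3)⁻¹ / D := by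
  have hB0 : 0 < B := by linarith only [hB]
  have he0 : 0 < e := by linarith only [he7]
  have hD0 : 0 < D := by linarith only [hD]
  have hL0 : 0 < L := lt_of_lt_of_le (by positivity) hL
  set Q : ℝ := L * (e ^ 3)⁻¹ / D with hQ
  have hQ0 : 0 < Q := by positivity
  have h1 : (2 * B + 1) ^ 2 ≤ B ^ 3 := by
    have h2 : (2 * B + 1) ^ 2 ≤ 9 * B ^ 2 := by nlinarith only [hB]
    have h3 : 9 * B ^ 2 ≤ B * B ^ 2 := by
      apply mul_le_mul_of_nonneg_right _ (by positivity)
      linarith only [hB]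
    linarith only [h2, h3]
  have h2 : m * ((2 * B) * ((e ^ 4)⁻¹ / (8 * D ^ 2))) ≤ Q * (3 / 28) := by
    have h3 : m * (2 * B) ≤ 6 * L := by
      have h4 : m * (2 * B) ≤ (2 * L / B + 2) * (2 * B) :=
        mul_le_mul_of_nonneg_right hm (by positivity)
      have h5 : (2 * L / B + 2) * (2 * B) = 4 * L + 4 * B := by field_simp; ring
      have h7 : 4 * B ≤ 2 * L := by
        have h8 : B ^ 8 = B ^ 7 * B := by ring
        have h9 : (2 : ℝ) ≤ B ^ 7 := by
          have h10 : B ≤ B ^ 7 := le_self_pow₀ (by linarith only [hB]) (by norm_num)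
          linarith only [h10, hB]
        nlinarith only [hL, h8, h9, hB0]
      linarith only [h4, h5, h7]
    have h11 : (8 * D ^ 2)⁻¹ ≤ (8 * D)⁻¹ := by
      apply inv_anti₀ (by positivity)
      nlinarith only [hD]
    have h12 : (e ^ 4)⁻¹ ≤ (e ^ 3)⁻¹ * (1 / 7) := by
      have h13 : (e ^ 4)⁻¹ = (e ^ 3)⁻¹ * e⁻¹ := by rw [← mul_inv]; ring_nf
      rw [h13]
      apply mul_le_mul_of_nonneg_left _ (by positivity)
      rw [one_div]
      exact inv_anti₀ (by norm_num) he7
    calc m * ((2 * B) * ((e ^ 4)⁻¹ / (8 * D ^ 2)))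
        = (m * (2 * B)) * ((e ^ 4)⁻¹ * (8 * D ^ 2)⁻¹) := by rw [div_eq_mul_inv]; ring
      _ ≤ (6 * L) * (((e ^ 3)⁻¹ * (1 / 7)) * (8 * D)⁻¹) := by
          apply mul_le_mul h3 _ (by positivity) (by positivity)
          exact mul_le_mul h12 h11 (by positivity) (by positivity)
      _ = Q * (3 / 28) := by rw [hQ]; field_simp; norm_num
  have h3 : 801 * B ^ 3 ≤ Q * (1 / 2) := by
    have h4 : e ^ 3 ≤ B ^ 3 / 1728 := by
      have h5 : (12 * e) ^ 3 ≤ B ^ 3 := pow_le_pow_left₀ (by positivity) he 3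
      have h6 : (12 * e) ^ 3 = 1728 * e ^ 3 := by ring
      linarith only [h5, h6]
    have h7 : 1602 * B ^ 3 * (e ^ 3 * D) ≤ L := by
      have h8 : e ^ 3 * D ≤ B ^ 3 / 1728 * B := mul_le_mul h4 hDB hD0.le (by positivity)
      calc 1602 * B ^ 3 * (e ^ 3 * D) ≤ 1602 * B ^ 3 * (B ^ 3 / 1728 * B) :=
            mul_le_mul_of_nonneg_left h8 (by positivity)
        _ = (1602 / 1728) * B ^ 7 := by ring
        _ ≤ B * B ^ 7 := by
            apply mul_le_mul_of_nonneg_right _ (by positivity)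
            linarith only [hB]
        _ = B ^ 8 := by ring
        _ ≤ L := hL
    have h9 : Q * (1 / 2) = L / (2 * (e ^ 3 * D)) := by rw [hQ]; field_simp
    rw [h9, le_div_iff₀ (by positivity)]
    linarith only [h7]
  linarith only [h1, h2, h3, hQ0, pow_pos hB0 3]

/-- **Every convex curve is a near-moat.** -/
theorem near_moat : ∃ C : ℝ, 0 < C ∧ ∀ D : ℝ, 1 ≤ D → ∀ k : ℕ, 2 ≤ k → ∀ L : ℝ,
    Real.exp (C * D ^ C * (k * Real.log k)) ≤ L → ∀ K : Set ℂ, Convex ℝ K → ∀ x₀ : ℂ,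
    ∀ X : Finset {z : GaussianInt // Prime z},
    (∀ z ∈ X, dist (GaussianInt.toComplex z) x₀ ≤ L ∧
      (∃ q ∈ frontier K, dist (GaussianInt.toComplex z) q ≤ Real.exp k) ∧
      ∃ w, (moatGraph D).Reachable z w ∧
        k * D ≤ dist (GaussianInt.toComplex z) (GaussianInt.toComplex w)) →
    (X.card : ℝ) ≤ L * Real.exp (-(3 * k)) / D := by
  classical
  obtain ⟨C₁, hC₁, hstrip⟩ := strip_starts
  refine ⟨8 * C₁, by positivity, ?_⟩
  intro D hD k hk L hL K hK x₀ X hX
  obtain ⟨B, hBexp, hB400, hBD, hBk, hBkD, hBs⟩ := hstrip D hD k hk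
  have hBS : StripBound D k B := hBs
  clear hBs
  have hD0 : 0 < D := by linarith only [hD]
  have hk2 : (2 : ℝ) ≤ k := by exact_mod_cast hk
  have hB400R : (400 : ℝ) ≤ B := by exact_mod_cast hB400
  have hB0 : (0 : ℝ) < B := by linarith only [hB400R]
  have hfinal : (B : ℝ) ^ 8 ≤ Real.exp (8 * C₁ * D ^ (8 * C₁) * (k * Real.log k)) := by
    have h1 : (B : ℝ) ^ 8 ≤ (Real.exp (C₁ * D ^ C₁ * (k * Real.log k))) ^ 8 :=
      pow_le_pow_left₀ hB0.le hBexp 8
    refine h1.trans ?_
    rw [← Real.exp_nat_mul]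
    apply Real.exp_le_exp.2
    have h2 : D ^ C₁ ≤ D ^ (8 * C₁) :=
      Real.rpow_le_rpow_of_exponent_le hD (by linarith only [hC₁])
    have hlogk : 0 ≤ (k : ℝ) * Real.log k := by
      have : 0 ≤ Real.log k := Real.log_nonneg (by linarith only [hk2])
      positivity
    push_cast
    calc 8 * (C₁ * D ^ C₁ * (k * Real.log k)) = 8 * C₁ * D ^ C₁ * (k * Real.log k) := by ring
      _ ≤ 8 * C₁ * D ^ (8 * C₁) * (k * Real.log k) := by
          apply mul_le_mul_of_nonneg_right _ hlogk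
          exact mul_le_mul_of_nonneg_left h2 (by positivity)
  have hBL : (B : ℝ) ^ 8 ≤ L := hfinal.trans hL
  have hL0 : 0 < L := lt_of_lt_of_le (by positivity) hBL
  have he7 : (7 : ℝ) ≤ Real.exp k := by
    have h1 : Real.exp 2 ≤ Real.exp k := Real.exp_le_exp.2 hk2
    have h2 : Real.exp 2 = Real.exp 1 ^ 2 := by rw [← Real.exp_nat_mul]; norm_num
    have h3 := Real.exp_one_gt_d9
    rw [h2] at h1
    nlinarith only [h1, h3]
  set m : ℕ := ⌊2 * L / B⌋₊ + 1 with hm
  have hm1 : 2 * L < m * B := by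
    have h1 := Nat.lt_floor_add_one (2 * L / B)
    rw [div_lt_iff₀ hB0] at h1
    rw [hm]; push_cast; exact h1
  have hm2 : (m : ℝ) ≤ 2 * L / B + 2 := by
    have h1 := Nat.floor_le (show 0 ≤ 2 * L / B by positivity)
    rw [hm]; push_cast
    linarith only [h1]
  set Y : Fin 4 → Finset {z : GaussianInt // Prime z} := fun i => X.filter
    (fun v => (LowerOK K (frame i) ∧ |ch (frame i) (GaussianInt.toComplex v) -
        lowerFun K (frame i) (cs (frame i) (GaussianInt.toComplex v))| ≤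
        2 * Real.exp k) ∧ (B : ℝ) < ‖GaussianInt.toComplex v‖) with hY
  set Z : Finset {z : GaussianInt // Prime z} := X.filter
    (fun v => ‖GaussianInt.toComplex v‖ ≤ B) with hZ
  have hcover : X ⊆ Z ∪ (Finset.univ : Finset (Fin 4)).biUnion Y := by
    intro v hv
    rw [Finset.mem_union]
    by_cases hvB : ‖GaussianInt.toComplex v‖ ≤ B
    · left
      rw [hZ, Finset.mem_filter]
      exact ⟨hv, hvB⟩
    · right
      push Not at hvB
      obtain ⟨-, ⟨q, hq, hvq⟩, -⟩ := hX v hv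
      obtain ⟨i, hi1, hi2⟩ := frontier_cover hK hq
      rw [Finset.mem_biUnion]
      refine ⟨i, Finset.mem_univ _, ?_⟩
      simp only [hY, Finset.mem_filter]
      refine ⟨hv, ⟨hi1, ?_⟩, hvB⟩
      have hunit := frame_unit i
      have h1 := hi1.lipschitz (cs (frame i) q) (cs (frame i) (GaussianInt.toComplex v))
      have h2 := abs_cs_sub_le hunit q (GaussianInt.toComplex v)
      have h3 := abs_ch_sub_le hunit (GaussianInt.toComplex v) q
      rw [dist_comm q] at h2
      have h4 : ch (frame i) (GaussianInt.toComplex v) -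
        lowerFun K (frame i) (cs (frame i) (GaussianInt.toComplex v)) =
        (ch (frame i) (GaussianInt.toComplex v) - ch (frame i) q) +
        (lowerFun K (frame i) (cs (frame i) q) -
        lowerFun K (frame i) (cs (frame i) (GaussianInt.toComplex v))) := by
        rw [hi2]; ring
      rw [h4]
      refine (abs_add_le _ _).trans ?_
      linarith only [h1, h2, h3, hvq]
  have hZcard : (Z.card : ℝ) ≤ (2 * B + 1) ^ 2 := by
    apply crude_count Z 0 0 B hB0.le
    intro v hv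
    rw [hZ, Finset.mem_filter] at hv
    have h1 := Complex.abs_re_le_norm (GaussianInt.toComplex v)
    have h2 := Complex.abs_im_le_norm (GaussianInt.toComplex v)
    rw [← GaussianInt.intCast_re] at h1
    rw [← GaussianInt.intCast_im] at h2
    rw [sub_zero, sub_zero]
    exact ⟨h1.trans hv.2, h2.trans hv.2⟩
  have hYcard : ∀ i ∈ (Finset.univ : Finset (Fin 4)), ((Y i).card : ℝ) ≤
      m * ((2 * B) * (Real.exp (-(4 * k)) / (8 * D ^ 2))) + 200 * B ^ 3 := by
    intro i _
    apply frame_starts' hD hBS hBk hK i x₀ m hm1 (Y i)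
    intro v hv
    simp only [hY, Finset.mem_filter] at hv
    obtain ⟨h1, -, w, hvw, hdw⟩ := hX v hv.1
    obtain ⟨p⟩ := hvw
    rw [dist_comm] at h1
    exact ⟨h1, hv.2.1, startsPath_of_far hD0 (by omega) p hdw, hv.2.2⟩
  have htotal : (X.card : ℝ) ≤ (2 * B + 1) ^ 2 + 4 *
      (m * ((2 * B) * (Real.exp (-(4 * k)) / (8 * D ^ 2))) + 200 * B ^ 3) := by
    have h1 : X.card ≤ Z.card + ∑ i : Fin 4, (Y i).card :=
      (Finset.card_le_card hcover).trans ((Finset.card_union_le _ _).trans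
        (add_le_add le_rfl Finset.card_biUnion_le))
    have h2 : (X.card : ℝ) ≤ Z.card + ∑ i : Fin 4, ((Y i).card : ℝ) := by
      exact_mod_cast h1
    refine h2.trans (add_le_add hZcard ((Finset.sum_le_sum hYcard).trans (le_of_eq ?_)))
    rw [Finset.sum_const, nsmul_eq_mul, Finset.card_univ, Fintype.card_fin]
    push_cast
    ring
  have he4 : Real.exp (-(4 * (k : ℝ))) = ((Real.exp k) ^ 4)⁻¹ := by
    rw [Real.exp_neg, ← Real.exp_nat_mul]
    norm_num
  have he3 : Real.exp (-(3 * (k : ℝ))) = ((Real.exp k) ^ 3)⁻¹ := by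
    rw [Real.exp_neg, ← Real.exp_nat_mul]
    norm_num
  rw [he4] at htotal
  rw [he3]
  exact htotal.trans (count_arith hB400R hD hBD hBk he7 hBL hm2)

end Vale.Agent.P015.H807
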