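import Vale.Agent.P015.H807.Scale

/-!
Finite unions of convex curves, annuli.
-/

open Finset Filter Topology

namespace Vale.Agent.P015.H807

open Vale.Agent.P015

/-- Analytic facts for the comparison of the widths at nearby points. -/
theorem near_facts {c : ℝ} (hc : 0 < c) (B : ℝ) : ∀ᶠ x : ℝ in atTop,
    B ≤ width c x ∧ (∀ y : ℝ, 0 ≤ y → y ≤ x + x ^ (1 / 2 : ℝ) →
      width (c / 2) y ≤ width c x) ∧ B ≤ x - x ^ (1 / 2 : ℝ) := by
  filter_upwards [(tendsto_width hc).eventually (eventually_ge_atTop B),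
    eventually_ge_atTop (4 : ℝ), eventually_ge_atTop (2 * |B|)] with x h1 h2 h3
  have h4 : x ^ (1 / 2 : ℝ) ≤ x / 2 := by
    rw [← Real.sqrt_eq_rpow, Real.sqrt_le_left (by linarith only [h2])]
    nlinarith only [h2]
  refine ⟨h1, ?_, ?_⟩
  · intro y hy hyx
    have h5 := width_double (c := c / 2) (by linarith only [hc]) (x := x) (y := y)
      (by linarith only [h2]) hy (by nlinarith only [hyx, h4, h2])
    have h6 : 2 * (c / 2) = c := by ring
    rwa [h6] at h5
  · have h5 := le_abs_self B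
    linarith only [h3, h4, h5]

/-- **Finite unions of convex curves.** -/
theorem union_components (D : ℝ) : ∃ c : ℝ, 0 < c ∧
    ∀ (M : ℕ) (K : Fin M → Set ℂ), (∀ j, Convex ℝ (K j)) →
    ∀ L : ((moatGraph D).induce {z | NearBoundaries K
      (width c ‖GaussianInt.toComplex z.1‖) (GaussianInt.toComplex z.1)}).ConnectedComponent,
      L.supp.Finite := by
  obtain ⟨c, hc, h⟩ := thin_components D (1 / 2) (by norm_num)
  refine ⟨c / 2, by positivity, ?_⟩
  intro M K hK
  obtain ⟨R₀, hR₀⟩ := eventually_atTop.1 (near_facts hc (M : ℝ))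
  apply h _ R₀
  intro z _ hzR
  obtain ⟨g1, g2, -⟩ := hR₀ _ hzR
  refine ⟨M, K, g1, hK, ?_⟩
  intro v hv hzv
  obtain ⟨j, q, hq, hvq⟩ := hv
  refine ⟨j, q, hq, hvq.trans ?_⟩
  apply g2 _ (norm_nonneg _)
  have h2 := norm_le_add_dist z.1 v.1
  linarith only [h2, hzv]

/-- the width is eventually smaller than half the radius -/
theorem width_le_half (c : ℝ) (hc : c ≤ 1 / 4) : ∀ᶠ x : ℝ in atTop,
    width c x ≤ x / 2 := by
  filter_upwards [eventually_ge_atTop (16 : ℝ)] with x hx
  have hx0 : 0 < x := by linarith only [hx]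
  set T : ℝ := Real.log (x + 16) with hT
  have hTe : Real.exp 1 ≤ T := exp_one_le_log_sixteen hx0.le
  have hT0 : 0 < T := lt_of_lt_of_le (Real.exp_pos 1) hTe
  have hlT : 1 ≤ Real.log T := (Real.le_log_iff_exp_le hT0).2 hTe
  have h1 : T / Real.log T ≤ T := div_le_self hT0.le hlT
  have h2 : c * (T / Real.log T) ≤ 1 / 4 * T :=
    mul_le_mul hc h1 (by positivity) (by norm_num)
  have h3 : T ≤ 2 * Real.log x := by
    have h6 : x + 16 ≤ x ^ 2 := by nlinarith only [hx]
    have h8 := Real.log_le_log (by linarith only [hx0]) h6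
    rw [Real.log_pow] at h8
    push_cast at h8
    exact h8
  have h4 : width c x ≤ Real.exp (1 / 2 * Real.log x) := by
    unfold width
    exact Real.exp_le_exp.2 (by linarith only [h2, h3])
  have h5 : Real.exp (1 / 2 * Real.log x) = Real.sqrt x := by
    rw [Real.sqrt_eq_rpow, Real.rpow_def_of_pos hx0]
    ring_nf
  rw [h5] at h4
  refine h4.trans ?_
  rw [Real.sqrt_le_left (by linarith only [hx])]
  nlinarith only [hx]

/-- **Annuli.** -/
theorem annulus_confinement (D ε : ℝ) (hε : 0 < ε) : ∃ c : ℝ, 0 < c ∧ ∀ᶠ R : ℝ in atTop,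
    ∀ (z₀ : ℂ) (z w : {z : GaussianInt // Prime z}) (p : (moatGraph D).Walk z w),
    (∀ v ∈ p.support, R ≤ dist (GaussianInt.toComplex v) z₀ ∧
      dist (GaussianInt.toComplex v) z₀ ≤ R + width c R) →
    dist (GaussianInt.toComplex z) (GaussianInt.toComplex w) ≤ R ^ ε := by
  obtain ⟨c, hc, -, hconf⟩ := scale_confinement (le_max_right D 1) hε
  refine ⟨c, hc, ?_⟩
  filter_upwards [hconf, (tendsto_width hc).eventually (eventually_ge_atTop 1),
    eventually_gt_atTop 0] with R hR hR1 hR0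
  intro z₀ z w p hp
  have hmap : moatGraph D ≤ moatGraph (max D 1) := moatGraph_mono (le_max_left D 1)
  refine hR 1 (fun _ => Metric.closedBall z₀ R) (by push_cast; exact hR1)
    (fun _ => convex_closedBall z₀ R) z w (p.mapLe hmap) ?_
  intro v hv
  have hv' : v ∈ p.support := by
    rw [SimpleGraph.Walk.support_mapLe_eq_support] at hv
    exact hv
  obtain ⟨h1, h2⟩ := hp v hv'
  set x : ℂ := GaussianInt.toComplex v with hx
  have hd0 : 0 < dist x z₀ := lt_of_lt_of_le hR0 h1
  refine ⟨0, z₀ + ((R / dist x z₀ : ℝ) : ℂ) * (x - z₀), ?_, ?_⟩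
  · rw [frontier_closedBall z₀ hR0.ne', Metric.mem_sphere, dist_eq_norm, add_sub_cancel_left,
      norm_mul, Complex.norm_real, Real.norm_of_nonneg (by positivity), ← dist_eq_norm]
    field_simp
  · have h3 : x - (z₀ + ((R / dist x z₀ : ℝ) : ℂ) * (x - z₀)) =
        ((1 - R / dist x z₀ : ℝ) : ℂ) * (x - z₀) := by push_cast; ring
    have h4 : 0 ≤ 1 - R / dist x z₀ := by
      rw [sub_nonneg, div_le_one hd0]; exact h1
    rw [dist_eq_norm, h3, norm_mul, Complex.norm_real, Real.norm_of_nonneg h4, ← dist_eq_norm]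
    have h5 : (1 - R / dist x z₀) * dist x z₀ = dist x z₀ - R := by field_simp
    rw [h5]
    linarith only [h2]

end Vale.Agent.P015.H807
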