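import Vale.Agent.P015.Defs

namespace Vale.Agent.P015.H807

/-- The width function `exp (c * log (r + 16) / log log (r + 16))`. -/
noncomputable def width (c r : ℝ) : ℝ :=
  Real.exp (c * (Real.log (r + 16) / Real.log (Real.log (r + 16))))

/-- The point `z` is within distance `ρ` of the union of the boundaries of the sets `K j`. -/
def NearBoundaries {M : ℕ} (K : Fin M → Set ℂ) (ρ : ℝ) (z : ℂ) : Prop :=
  ∃ j, ∃ q ∈ frontier (K j), dist z q ≤ ρ

/-- The Gaussian primes `z` within distance `width c |z|` of the boundaries of the sets `K j`. -/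
def nearUnion {M : ℕ} (K : Fin M → Set ℂ) (c : ℝ) : Set {z : GaussianInt // Prime z} :=
  {z | NearBoundaries K (width c ‖GaussianInt.toComplex z.1‖) (GaussianInt.toComplex z.1)}

/-- The Gaussian primes `z` within distance `width c |z|` of the curve `Γ`. -/
def nearCurve (Γ : ℝ → ℂ) (c : ℝ) : Set {z : GaussianInt // Prime z} :=
  {z | ∃ t : ℝ, dist (GaussianInt.toComplex z.1) (Γ t) ≤ width c ‖GaussianInt.toComplex z.1‖}

end Vale.Agent.P015.H807
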