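import Vale.Agent.P015.H807.Confine
import Mathlib.Analysis.Normed.Module.Connected

/-!
Large discs centred on convex curves that meet only tiny components of `G_D`.
-/

open Finset Filter Topology

namespace Vale.Agent.P015.H807

open Vale.Agent.P015

theorem meets_frontier {t s : Set ℂ} (ht : IsPreconnected t) (h1 : (t ∩ s).Nonempty)
    (h2 : (t ∩ sᶜ).Nonempty) : (t ∩ frontier s).Nonempty := by
  by_contra hcon
  rw [Set.not_nonempty_iff_eq_empty] at hcon
  have hnf : ∀ x ∈ t, x ∉ frontier s := by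
    intro x hx hxf
    have : x ∈ t ∩ frontier s := ⟨hx, hxf⟩
    rw [hcon] at this
    exact this
  have hcase : ∀ x ∈ t, x ∈ interior s ∨ x ∈ interior sᶜ := by
    intro x hx
    by_cases hxi : x ∈ interior s
    · exact Or.inl hxi
    · right
      rw [interior_compl]
      intro hxc
      exact hnf x hx ⟨hxc, hxi⟩
  obtain ⟨x, hxt, hxs⟩ := h1
  obtain ⟨y, hyt, hys⟩ := h2
  have hx : x ∈ interior s := by
    rcases hcase x hxt with h | h
    · exact h
    · exact absurd hxs (interior_subset h)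
  have hy : y ∈ interior sᶜ := by
    rcases hcase y hyt with h | h
    · exact absurd (interior_subset h) hys
    · exact h
  obtain ⟨w, -, hw1, hw2⟩ := ht (interior s) (interior sᶜ) isOpen_interior isOpen_interior
    (fun x hx => hcase x hx) ⟨x, hxt, hx⟩ ⟨y, hyt, hy⟩
  exact (interior_subset hw2) (interior_subset hw1)

/-- The circles about a boundary point of a convex set meet the boundary. -/
theorem sphere_meets {K : Set ℂ} (hK : Convex ℝ K) {q₀ : ℂ} (hq : q₀ ∈ frontier K) {ρ : ℝ}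
    (hρ : 0 < ρ) (hfar : ∃ x ∈ K, ρ ≤ dist x q₀) :
    ∃ q ∈ frontier K, dist q q₀ = ρ := by
  have hrank : 1 < Module.rank ℝ ℂ := by simp only [Complex.rank_real_complex, Nat.one_lt_ofNat]
  have hconn : IsPreconnected (Metric.sphere q₀ ρ) := isPreconnected_sphere hrank q₀ ρ
  have h1 : (Metric.sphere q₀ ρ ∩ K).Nonempty := by
    obtain ⟨x, hx, hxρ⟩ := hfar
    obtain ⟨y, hy, hyρ⟩ := Metric.mem_closure_iff.1 hq.1 ρ hρ
    rw [dist_comm] at hyρ
    have hcont : ContinuousOn (fun t : ℝ => dist (y + (t : ℂ) * (x - y)) q₀) (Set.Icc 0 1) := by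
      fun_prop
    have hmem : ρ ∈ Set.Icc (dist (y + ((0 : ℝ) : ℂ) * (x - y)) q₀)
        (dist (y + ((1 : ℝ) : ℂ) * (x - y)) q₀) := by
      constructor
      · rw [Complex.ofReal_zero, zero_mul, add_zero]; exact hyρ.le
      · rw [Complex.ofReal_one, one_mul, add_sub_cancel]; exact hxρ
    obtain ⟨t, ht, htρ⟩ := intermediate_value_Icc (zero_le_one) hcont hmem
    refine ⟨y + (t : ℂ) * (x - y), htρ, ?_⟩
    have h2 := hK hy hx (sub_nonneg.2 ht.2) ht.1 (sub_add_cancel 1 t)
    have h3 : (1 - t) • y + t • x = y + (t : ℂ) * (x - y) := by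
      rw [Complex.real_smul, Complex.real_smul]; push_cast; ring
    rwa [h3] at h2
  have h2 : (Metric.sphere q₀ ρ ∩ Kᶜ).Nonempty := by
    by_contra hcon
    have hsub : Metric.sphere q₀ ρ ⊆ K := by
      intro x hx
      by_contra hxK
      exact hcon ⟨x, hx, hxK⟩
    apply hq.2
    rw [mem_interior]
    refine ⟨Metric.ball q₀ ρ, ?_, Metric.isOpen_ball, Metric.mem_ball_self hρ⟩
    intro y hy
    by_cases hyq : y = q₀
    · have hv1 : q₀ + (ρ : ℂ) ∈ K := hsub (by
        rw [Metric.mem_sphere, dist_eq_norm, add_sub_cancel_left, Complex.norm_real,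
          Real.norm_of_nonneg hρ.le])
      have hv2 : q₀ - (ρ : ℂ) ∈ K := hsub (by
        rw [Metric.mem_sphere, dist_eq_norm, sub_sub_cancel_left, norm_neg, Complex.norm_real,
          Real.norm_of_nonneg hρ.le])
      have h3 := hK hv1 hv2 (by norm_num : (0 : ℝ) ≤ 1 / 2) (by norm_num : (0 : ℝ) ≤ 1 / 2)
        (by norm_num)
      have h4 : (1 / 2 : ℝ) • (q₀ + (ρ : ℂ)) + (1 / 2 : ℝ) • (q₀ - (ρ : ℂ)) = y := by
        rw [Complex.real_smul, Complex.real_smul, hyq]; push_cast; ring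
      rwa [h4] at h3
    · have hd0 : 0 < dist y q₀ := dist_pos.2 hyq
      have hdρ : dist y q₀ < ρ := hy
      set s : ℝ := dist y q₀ / ρ with hs
      have hs0 : 0 < s := by positivity
      have hs1 : s < 1 := by rw [hs, div_lt_one hρ]; exact hdρ
      set v : ℂ := ((ρ / dist y q₀ : ℝ) : ℂ) * (y - q₀) with hv
      have hvn : ‖v‖ = ρ := by
        rw [hv, norm_mul, Complex.norm_real, Real.norm_of_nonneg (by positivity), ← dist_eq_norm]
        field_simp
      have hyv : y = q₀ + (s : ℂ) * v := by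
        rw [hv, ← mul_assoc, ← Complex.ofReal_mul]
        have : s * (ρ / dist y q₀) = 1 := by rw [hs]; field_simp
        rw [this, Complex.ofReal_one, one_mul, add_sub_cancel]
      have hv1 : q₀ + v ∈ K := hsub (by
        rw [Metric.mem_sphere, dist_eq_norm, add_sub_cancel_left, hvn])
      have hv2 : q₀ - v ∈ K := hsub (by
        rw [Metric.mem_sphere, dist_eq_norm, sub_sub_cancel_left, norm_neg, hvn])
      have h3 := hK hv1 hv2 (show (0 : ℝ) ≤ (1 + s) / 2 by positivity)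
        (show (0 : ℝ) ≤ (1 - s) / 2 by linarith only [hs1]) (by ring)
      have h4 : ((1 + s) / 2 : ℝ) • (q₀ + v) + ((1 - s) / 2 : ℝ) • (q₀ - v) = y := by
        rw [Complex.real_smul, Complex.real_smul, hyv]; push_cast; ring
      rwa [h4] at h3
  obtain ⟨q, hq1, hq2⟩ := meets_frontier hconn h1 h2
  exact ⟨q, hq2, hq1⟩

theorem discs_arith {B D e J : ℝ} (hB : 400 ≤ B) (hD : 1 ≤ D)
    (he : 12 * e ≤ B) (he7 : 7 ≤ e) (hJ1 : B ^ 6 / 2 / (3 * e) - 1 ≤ J)
    (hJ2 : J ≤ (2 * B + 1) ^ 2 + 4 * ((B ^ 5 + 1) * ((2 * B) * ((e ^ 4)⁻¹ / (8 * D ^ 2))) +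
      200 * B ^ 3)) : False := by
  have hB0 : 0 < B := by linarith only [hB]
  have he0 : 0 < e := by linarith only [he7]
  have hD0 : 0 < D := by linarith only [hD]
  set Q : ℝ := B ^ 6 / 2 / (3 * e) with hQ
  have hQ0 : 0 < Q := by positivity
  have h1 : (2 * B + 1) ^ 2 ≤ B ^ 3 := by
    have h2 : (2 * B + 1) ^ 2 ≤ 9 * B ^ 2 := by nlinarith only [hB]
    have h3 : 9 * B ^ 2 ≤ B * B ^ 2 := by
      apply mul_le_mul_of_nonneg_right _ (by positivity)
      linarith only [hB]
    linarith only [h2, h3]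
  have h6 : (B ^ 5 + 1) * ((2 * B) * ((e ^ 4)⁻¹ / (8 * D ^ 2))) ≤ Q * (1 / 100) := by
    have h7 : B ^ 5 + 1 ≤ 3 / 2 * B ^ 5 := by
      have : (1 : ℝ) ≤ B ^ 4 := one_le_pow₀ (by linarith only [hB])
      nlinarith only [this, hB]
    have h8 : (e ^ 4)⁻¹ * e ≤ 1 / 343 := by
      have h9 : (e ^ 4)⁻¹ * e = (e ^ 3)⁻¹ := by field_simp
      rw [h9, one_div]
      apply inv_anti₀ (by norm_num)
      have h10 : (7 : ℝ) ^ 3 ≤ e ^ 3 := pow_le_pow_left₀ (by norm_num) he7 3
      norm_num at h10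
      exact h10
    have h11 : (8 * D ^ 2)⁻¹ ≤ (8 : ℝ)⁻¹ := by
      apply inv_anti₀ (by norm_num)
      nlinarith only [hD]
    calc (B ^ 5 + 1) * ((2 * B) * ((e ^ 4)⁻¹ / (8 * D ^ 2)))
        ≤ (3 / 2 * B ^ 5) * ((2 * B) * ((e ^ 4)⁻¹ / (8 * D ^ 2))) :=
          mul_le_mul_of_nonneg_right h7 (by positivity)
      _ = 3 * B ^ 6 * ((e ^ 4)⁻¹ * e) * (8 * D ^ 2)⁻¹ / e := by
          rw [div_eq_mul_inv]; field_simp
      _ ≤ 3 * B ^ 6 * (1 / 343) * (8 : ℝ)⁻¹ / e := by
          apply div_le_div_of_nonneg_right _ he0.le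
          apply mul_le_mul _ h11 (by positivity) (by positivity)
          exact mul_le_mul_of_nonneg_left h8 (by positivity)
      _ = Q * (18 / 2744) := by rw [hQ]; field_simp; norm_num
      _ ≤ Q * (1 / 100) := by
          apply mul_le_mul_of_nonneg_left _ hQ0.le
          norm_num
  have h14 : 2 * B ^ 5 ≤ Q := by
    rw [hQ, le_div_iff₀ (by positivity)]
    have h15 : 2 * B ^ 5 * (3 * e) ≤ 2 * B ^ 5 * (B / 4) :=
      mul_le_mul_of_nonneg_left (by linarith only [he]) (by positivity)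
    have h16 : 2 * B ^ 5 * (B / 4) = B ^ 6 / 2 := by ring
    linarith only [h15, h16]
  have h17 : 1600 * B ^ 3 ≤ B ^ 5 := by
    have h18 : B ^ 5 = B ^ 2 * B ^ 3 := by ring
    rw [h18]
    apply mul_le_mul_of_nonneg_right _ (by positivity)
    nlinarith only [hB]
  have h19 : (1 : ℝ) ≤ B ^ 3 := one_le_pow₀ (by linarith only [hB])
  linarith only [hJ1, hJ2, h1, h6, h14, h17, h19]

/-- Count near one boundary curve, in one frame, about any centre. -/
theorem frame_starts' {D : ℝ} {k B : ℕ} (hD : 1 ≤ D) (hB : StripBound D k B)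
    (hBk : 12 * Real.exp k ≤ B) {K : Set ℂ} (hK : Convex ℝ K) (i : Fin 4)
    (x₀ : ℂ) {L : ℝ} (m : ℕ) (hm : 2 * L < m * B)
    (X : Finset {z : GaussianInt // Prime z})
    (hX : ∀ v ∈ X, dist x₀ (GaussianInt.toComplex v) ≤ L ∧
      (LowerOK K (frame i) ∧ |ch (frame i) (GaussianInt.toComplex v) -
        lowerFun K (frame i) (cs (frame i) (GaussianInt.toComplex v))| ≤ 2 * Real.exp k) ∧
      StartsPath D k v ∧ (B : ℝ) < ‖GaussianInt.toComplex v‖) :
    (X.card : ℝ) ≤ m * ((2 * B) * (Real.exp (-(4 * k)) / (8 * D ^ 2))) + 200 * B ^ 3 := by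
  by_cases hOK : LowerOK K (frame i)
  · have hunit := frame_unit i
    apply graph_starts hD hB hBk hunit (lowerFun K (frame i)) (hOK.convexOn hK) hOK.lipschitz
      (cs (frame i) x₀ - L) m X
    intro v hv
    obtain ⟨h1, h2, h3, h4⟩ := hX v hv
    have h5 := abs_le.1 (abs_cs_sub_le hunit x₀ (GaussianInt.toComplex v))
    rw [sco_eq, hco_eq]
    exact ⟨by linarith only [h5.2, h1], by linarith only [h5.1, h1, hm], h2.2, h3, h4⟩
  · have hempty : X = ∅ := by
      rw [Finset.eq_empty_iff_forall_notMem]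
      intro v hv
      exact hOK (hX v hv).2.1.1
    rw [hempty, Finset.card_empty]
    have hD0 : 0 < D := by linarith only [hD]
    push_cast
    positivity

/-- **Discs on convex curves.** -/
theorem blocking_discs : ∃ C : ℝ, 0 < C ∧ ∀ D : ℝ, 1 ≤ D → ∀ k : ℕ, 2 ≤ k → ∀ L : ℝ,
    Real.exp (C * D ^ C * (k * Real.log k)) ≤ L → ∀ K : Set ℂ, Convex ℝ K →
    ∀ q₀ ∈ frontier K, (∃ x ∈ K, L ≤ dist x q₀) →
    ∃ q ∈ frontier K, dist q q₀ ≤ L ∧
      ∀ z w : {z : GaussianInt // Prime z}, (moatGraph D).Reachable z w →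
        dist (GaussianInt.toComplex z) q ≤ Real.exp k →
        dist (GaussianInt.toComplex z) (GaussianInt.toComplex w) < k * D := by
  classical
  obtain ⟨C₁, hC₁, hstrip⟩ := strip_starts
  refine ⟨6 * C₁, by positivity, ?_⟩
  intro D hD k hk L hL K hK q₀ hq₀ hfar
  obtain ⟨B, hBexp, hB400, hBD, hBk, hBkD, hBs⟩ := hstrip D hD k hk
  have hBS : StripBound D k B := hBs
  clear hBs
  have hD0 : 0 < D := by linarith only [hD]
  have hk2 : (2 : ℝ) ≤ k := by exact_mod_cast hk
  have hB400R : (400 : ℝ) ≤ B := by exact_mod_cast hB400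
  have hB0 : (0 : ℝ) < B := by linarith only [hB400R]
  have hfinal : (B : ℝ) ^ 6 ≤ Real.exp (6 * C₁ * D ^ (6 * C₁) * (k * Real.log k)) := by
    have h1 : (B : ℝ) ^ 6 ≤ (Real.exp (C₁ * D ^ C₁ * (k * Real.log k))) ^ 6 :=
      pow_le_pow_left₀ hB0.le hBexp 6
    refine h1.trans ?_
    rw [← Real.exp_nat_mul]
    apply Real.exp_le_exp.2
    have h2 : D ^ C₁ ≤ D ^ (6 * C₁) :=
      Real.rpow_le_rpow_of_exponent_le hD (by linarith only [hC₁])
    have hlogk : 0 ≤ (k : ℝ) * Real.log k := by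
      have : 0 ≤ Real.log k := Real.log_nonneg (by linarith only [hk2])
      positivity
    push_cast
    calc 6 * (C₁ * D ^ C₁ * (k * Real.log k)) = 6 * C₁ * D ^ C₁ * (k * Real.log k) := by ring
      _ ≤ 6 * C₁ * D ^ (6 * C₁) * (k * Real.log k) := by
          apply mul_le_mul_of_nonneg_right _ hlogk
          exact mul_le_mul_of_nonneg_left h2 (by positivity)
  have hBL : (B : ℝ) ^ 6 ≤ L := hfinal.trans hL
  set e : ℝ := Real.exp k with he
  have he0 : 0 < e := Real.exp_pos _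
  have he7 : (7 : ℝ) ≤ e := by
    have h1 : Real.exp 2 ≤ Real.exp k := Real.exp_le_exp.2 hk2
    have h2 : Real.exp 2 = Real.exp 1 ^ 2 := by rw [← Real.exp_nat_mul]; norm_num
    have h3 := Real.exp_one_gt_d9
    rw [h2] at h1
    nlinarith only [h1, h3]
  by_contra hcon
  push Not at hcon
  set Λ : ℝ := (B : ℝ) ^ 6 / 2 with hΛ
  have hΛ0 : 0 < Λ := by positivity
  have hΛL : Λ ≤ L := by rw [hΛ]; linarith only [hBL, pow_pos hB0 6]
  set J : ℕ := ⌊Λ / (3 * e)⌋₊ with hJ
  have hJ1 : (J : ℝ) ≤ Λ / (3 * e) := Nat.floor_le (by positivity)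
  have hJ2 : Λ / (3 * e) < J + 1 := Nat.lt_floor_add_one _
  rw [le_div_iff₀ (by positivity)] at hJ1
  -- one point for each level
  have hex : ∀ j : ℕ, j < J → ∃ z : {z : GaussianInt // Prime z}, StartsPath D k z ∧
      ∃ q ∈ frontier K, dist q q₀ = 3 * e * (j + 1) ∧ dist (GaussianInt.toComplex z) q ≤ e := by
    intro j hj
    have hj1 : ((j : ℝ) + 1) ≤ J := by exact_mod_cast hj
    have hj2 : 3 * e * ((j : ℝ) + 1) ≤ L := by
      have : 3 * e * ((j : ℝ) + 1) ≤ 3 * e * J := mul_le_mul_of_nonneg_left hj1 (by positivity)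
      linarith only [this, hJ1, hΛL]
    obtain ⟨q, hq, hqρ⟩ := sphere_meets hK hq₀ (ρ := 3 * e * ((j : ℝ) + 1)) (by positivity) (by
      obtain ⟨x, hx, hxL⟩ := hfar
      exact ⟨x, hx, hj2.trans hxL⟩)
    obtain ⟨z, w, hzw, hzq, hzwd⟩ := hcon q hq (by rw [hqρ]; exact hj2)
    obtain ⟨p⟩ := hzw
    exact ⟨z, startsPath_of_far hD0 (by omega) p hzwd, q, hq, hqρ, hzq⟩
  have hgp : Nonempty {z : GaussianInt // Prime z} := by
    by_contra hne
    have hJ0 : J = 0 := by
      by_contra hJ0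
      obtain ⟨z, -⟩ := hex 0 (by omega)
      exact hne ⟨z⟩
    rw [hJ0] at hJ2
    push_cast at hJ2
    have h1 : (1 : ℝ) ≤ Λ / (3 * e) := by
      rw [le_div_iff₀ (by positivity), hΛ]
      have h2 : (B : ℝ) ≤ B ^ 6 := le_self_pow₀ (by linarith only [hB400R]) (by norm_num)
      linarith only [h2, hBk, he0]
    linarith only [h1, hJ2]
  choose! g hg1 Q hQ1 hQ2 hQ3 using hex
  have hgd : ∀ j, j < J → dist q₀ (GaussianInt.toComplex (g j)) ≤ 3 * e * (j + 1) + e ∧
      3 * e * (j + 1) - e ≤ dist q₀ (GaussianInt.toComplex (g j)) := by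
    intro j hj
    have h1 := hQ2 j hj
    have h2 := hQ3 j hj
    have h3 := dist_triangle q₀ (Q j) (GaussianInt.toComplex (g j))
    have h4 := dist_triangle q₀ (GaussianInt.toComplex (g j)) (Q j)
    rw [dist_comm q₀ (Q j)] at h3 h4
    rw [dist_comm (Q j) (GaussianInt.toComplex (g j))] at h3
    exact ⟨by linarith only [h1, h2, h3], by linarith only [h1, h2, h4]⟩
  set X : Finset {z : GaussianInt // Prime z} := (Finset.range J).image g with hXdef
  have hXcard : X.card = J := by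
    rw [hXdef, Finset.card_image_of_injOn, Finset.card_range]
    intro i hi j hj hij
    rw [Finset.coe_range, Set.mem_Iio] at hi hj
    obtain ⟨h1, h2⟩ := hgd i hi
    obtain ⟨h3, h4⟩ := hgd j hj
    rw [hij] at h1 h2
    by_contra hne
    rcases lt_or_gt_of_ne hne with h | h
    · have h5 : (i : ℝ) + 1 ≤ j := by exact_mod_cast h
      nlinarith only [h1, h4, h5, he0]
    · have h5 : (j : ℝ) + 1 ≤ i := by exact_mod_cast h
      nlinarith only [h3, h2, h5, he0]
  set Y : Fin 4 → Finset {z : GaussianInt // Prime z} := fun i => X.filter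
    (fun v => (LowerOK K (frame i) ∧ |ch (frame i) (GaussianInt.toComplex v) -
        lowerFun K (frame i) (cs (frame i) (GaussianInt.toComplex v))| ≤
        2 * Real.exp k) ∧ (B : ℝ) < ‖GaussianInt.toComplex v‖) with hY
  set Z : Finset {z : GaussianInt // Prime z} := X.filter
    (fun v => ‖GaussianInt.toComplex v‖ ≤ B) with hZ
  have hcover : X ⊆ Z ∪ (Finset.univ : Finset (Fin 4)).biUnion Y := by
    intro v hv
    rw [Finset.mem_union]
    by_cases hvB : ‖GaussianInt.toComplex v‖ ≤ B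
    · left
      rw [hZ, Finset.mem_filter]
      exact ⟨hv, hvB⟩
    · right
      push Not at hvB
      have hv' := hv
      rw [hXdef, Finset.mem_image] at hv'
      obtain ⟨j, hj, rfl⟩ := hv'
      rw [Finset.mem_range] at hj
      have hq := hQ1 j hj
      have hvq := hQ3 j hj
      obtain ⟨i, hi1, hi2⟩ := frontier_cover hK hq
      rw [Finset.mem_biUnion]
      refine ⟨i, Finset.mem_univ _, ?_⟩
      simp only [hY, Finset.mem_filter]
      refine ⟨hv, ⟨hi1, ?_⟩, hvB⟩
      have hunit := frame_unit i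
      have h1 := hi1.lipschitz (cs (frame i) (Q j)) (cs (frame i) (GaussianInt.toComplex (g j)))
      have h2 := abs_cs_sub_le hunit (Q j) (GaussianInt.toComplex (g j))
      have h3 := abs_ch_sub_le hunit (GaussianInt.toComplex (g j)) (Q j)
      rw [dist_comm (Q j)] at h2
      have h4 : ch (frame i) (GaussianInt.toComplex (g j)) -
        lowerFun K (frame i) (cs (frame i) (GaussianInt.toComplex (g j))) =
        (ch (frame i) (GaussianInt.toComplex (g j)) - ch (frame i) (Q j)) +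
        (lowerFun K (frame i) (cs (frame i) (Q j)) -
        lowerFun K (frame i) (cs (frame i) (GaussianInt.toComplex (g j)))) := by
        rw [hi2]; ring
      rw [h4]
      refine (abs_add_le _ _).trans ?_
      linarith only [h1, h2, h3, hvq]
  have hZcard : (Z.card : ℝ) ≤ (2 * B + 1) ^ 2 := by
    apply crude_count Z 0 0 B hB0.le
    intro v hv
    rw [hZ, Finset.mem_filter] at hv
    have h1 := Complex.abs_re_le_norm (GaussianInt.toComplex v)
    have h2 := Complex.abs_im_le_norm (GaussianInt.toComplex v)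
    rw [← GaussianInt.intCast_re] at h1
    rw [← GaussianInt.intCast_im] at h2
    rw [sub_zero, sub_zero]
    exact ⟨h1.trans hv.2, h2.trans hv.2⟩
  have hYcard : ∀ i ∈ (Finset.univ : Finset (Fin 4)), ((Y i).card : ℝ) ≤
      ((B : ℝ) ^ 5 + 1) * ((2 * B) * (Real.exp (-(4 * k)) / (8 * D ^ 2))) + 200 * B ^ 3 := by
    intro i _
    have h1 := frame_starts' hD hBS hBk hK i q₀ (L := Λ + e) (B ^ 5 + 1) (by
      push_cast
      have : ((B : ℝ) ^ 5 + 1) * B = B ^ 6 + B := by ring
      rw [this, hΛ]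
      linarith only [hB0, hBk, he0]) (Y i) (by
      intro v hv
      simp only [hY, Finset.mem_filter] at hv
      have hv' := hv.1
      rw [hXdef, Finset.mem_image] at hv'
      obtain ⟨j, hj, rfl⟩ := hv'
      rw [Finset.mem_range] at hj
      refine ⟨?_, hv.2.1, hg1 j hj, hv.2.2⟩
      have hj1 : ((j : ℝ) + 1) ≤ J := by exact_mod_cast hj
      have hj2 : 3 * e * ((j : ℝ) + 1) ≤ 3 * e * J := mul_le_mul_of_nonneg_left hj1 (by positivity)
      linarith only [(hgd j hj).1, hj2, hJ1])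
    push_cast at h1
    exact h1
  have htotal : (X.card : ℝ) ≤ (2 * B + 1) ^ 2 + 4 *
      (((B : ℝ) ^ 5 + 1) * ((2 * B) * (Real.exp (-(4 * k)) / (8 * D ^ 2))) + 200 * B ^ 3) := by
    have h1 : X.card ≤ Z.card + ∑ i : Fin 4, (Y i).card :=
      (Finset.card_le_card hcover).trans ((Finset.card_union_le _ _).trans
        (add_le_add le_rfl Finset.card_biUnion_le))
    have h2 : (X.card : ℝ) ≤ Z.card + ∑ i : Fin 4, ((Y i).card : ℝ) := by
      exact_mod_cast h1
    refine h2.trans (add_le_add hZcard ((Finset.sum_le_sum hYcard).trans (le_of_eq ?_)))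
    rw [Finset.sum_const, nsmul_eq_mul, Finset.card_univ, Fintype.card_fin]
    push_cast
    ring
  have he4 : Real.exp (-(4 * (k : ℝ))) = (e ^ 4)⁻¹ := by
    rw [he, Real.exp_neg, ← Real.exp_nat_mul]
    norm_num
  rw [he4, hXcard] at htotal
  exact discs_arith hB400R hD hBk he7 (by rw [← hΛ]; linarith only [hJ2]) htotal

end Vale.Agent.P015.H807
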