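import Vale.Agent.P015.H807.Strip

/-!
Counting the starting points of `k`-paths in a thin neighbourhood of the graph of a convex
function with Lipschitz constant `1`.
-/

open Finset

namespace Vale.Agent.P015.H807

open Vale.Agent.P015

/-- The bound of `strip_starts` for given parameters. -/
def StripBound (D : ℝ) (k B : ℕ) : Prop :=
  ∀ u₁ u₂ : ℝ, u₁ ^ 2 + u₂ ^ 2 = 1 → ∀ s0 h0 L : ℝ, (B : ℝ) ≤ L →
    ∀ X : Finset {z : GaussianInt // Prime z},
    (∀ z ∈ X, s0 ≤ sco u₁ u₂ z ∧ sco u₁ u₂ z ≤ s0 + L ∧ |hco u₁ u₂ z - h0| ≤ 4 * Real.exp k ∧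
      StartsPath D k z ∧ (B : ℝ) < ‖GaussianInt.toComplex z‖) →
    (X.card : ℝ) ≤ L * (Real.exp (-(4 * k)) / (8 * D ^ 2))

theorem crude_count (X : Finset {z : GaussianInt // Prime z}) (a b ρ : ℝ) (hρ : 0 ≤ ρ)
    (hX : ∀ z ∈ X, |(z.1.re : ℝ) - a| ≤ ρ ∧ |(z.1.im : ℝ) - b| ≤ ρ) :
    (X.card : ℝ) ≤ (2 * ρ + 1) ^ 2 := by
  classical
  set R : Finset ℤ := X.image (fun z => z.1.re) with hR
  set I : Finset ℤ := X.image (fun z => z.1.im) with hI
  have h1 : (R.card : ℝ) ≤ 2 * ρ + 1 := by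
    apply card_int_interval (a - ρ) (2 * ρ) (by linarith only [hρ])
    intro c hc
    rw [hR, Finset.mem_image] at hc
    obtain ⟨z, hz, rfl⟩ := hc
    have := abs_le.1 (hX z hz).1
    exact ⟨by linarith only [this.1], by linarith only [this.2]⟩
  have h2 : (I.card : ℝ) ≤ 2 * ρ + 1 := by
    apply card_int_interval (b - ρ) (2 * ρ) (by linarith only [hρ])
    intro c hc
    rw [hI, Finset.mem_image] at hc
    obtain ⟨z, hz, rfl⟩ := hc
    have := abs_le.1 (hX z hz).2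
    exact ⟨by linarith only [this.1], by linarith only [this.2]⟩
  have h3 : X.card ≤ (R ×ˢ I).card := by
    apply Finset.card_le_card_of_injOn (fun z => (z.1.re, z.1.im))
    · intro z hz
      simp only [Finset.coe_product, Set.mem_prod, Finset.mem_coe, hR, hI]
      exact ⟨Finset.mem_image_of_mem _ hz, Finset.mem_image_of_mem _ hz⟩
    · intro z _ w _ hzw
      simp only [Prod.mk.injEq] at hzw
      exact Subtype.ext (Zsqrtd.ext hzw.1 hzw.2)
  rw [Finset.card_product] at h3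
  have h4 : (X.card : ℝ) ≤ (R.card : ℝ) * (I.card : ℝ) := by exact_mod_cast h3
  calc (X.card : ℝ) ≤ (R.card : ℝ) * (I.card : ℝ) := h4
    _ ≤ (2 * ρ + 1) * (2 * ρ + 1) := mul_le_mul h1 h2 (Nat.cast_nonneg _) (by linarith only [hρ])
    _ = (2 * ρ + 1) ^ 2 := by ring

theorem crude_box {u₁ u₂ : ℝ} (hu : u₁ ^ 2 + u₂ ^ 2 = 1)
    (X : Finset {z : GaussianInt // Prime z}) (s h ρ : ℝ) (hρ : 0 ≤ ρ)
    (hX : ∀ z ∈ X, |sco u₁ u₂ z - s| ≤ ρ ∧ |hco u₁ u₂ z - h| ≤ ρ) :
    (X.card : ℝ) ≤ (4 * ρ + 1) ^ 2 := by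
  have hu1 : |u₁| ≤ 1 := by
    rw [abs_le_one_iff_mul_self_le_one]; nlinarith only [hu, sq_nonneg u₂]
  have hu2 : |u₂| ≤ 1 := by
    rw [abs_le_one_iff_mul_self_le_one]; nlinarith only [hu, sq_nonneg u₁]
  have h1 := crude_count X (u₁ * s - u₂ * h) (u₂ * s + u₁ * h) (2 * ρ) (by linarith only [hρ])
    (by
      intro z hz
      obtain ⟨g1, g2⟩ := hX z hz
      have hre : ((z : GaussianInt).re : ℝ) = u₁ * sco u₁ u₂ z - u₂ * hco u₁ u₂ z := by
        simp only [sco, hco]; linear_combination (-((z : GaussianInt).re : ℝ)) * hu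
      have him : ((z : GaussianInt).im : ℝ) = u₂ * sco u₁ u₂ z + u₁ * hco u₁ u₂ z := by
        simp only [sco, hco]; linear_combination (-((z : GaussianInt).im : ℝ)) * hu
      have hm : ∀ v x : ℝ, |v| ≤ 1 → |x| ≤ ρ → |v * x| ≤ ρ := by
        intro v x hv hx
        rw [abs_mul]
        calc |v| * |x| ≤ 1 * ρ := mul_le_mul hv hx (abs_nonneg _) (by norm_num)
          _ = ρ := one_mul _
      constructor
      · rw [hre]
        have : u₁ * sco u₁ u₂ z - u₂ * hco u₁ u₂ z - (u₁ * s - u₂ * h) =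
          u₁ * (sco u₁ u₂ z - s) - u₂ * (hco u₁ u₂ z - h) := by ring
        rw [this]
        refine (abs_sub _ _).trans ?_
        linarith only [hm _ _ hu1 g1, hm _ _ hu2 g2]
      · rw [him]
        have : u₂ * sco u₁ u₂ z + u₁ * hco u₁ u₂ z - (u₂ * s + u₁ * h) =
          u₂ * (sco u₁ u₂ z - s) + u₁ * (hco u₁ u₂ z - h) := by ring
        rw [this]
        refine (abs_add_le _ _).trans ?_
        linarith only [hm _ _ hu2 g1, hm _ _ hu1 g2])
  refine h1.trans (le_of_eq ?_)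
  ring

/-- A good piece: the graph is close to its chord. -/
theorem good_piece {D : ℝ} {k B : ℕ} (hB : StripBound D k B) (hBk : 12 * Real.exp k ≤ B)
    {u₁ u₂ : ℝ} (hu : u₁ ^ 2 + u₂ ^ 2 = 1) (x σ b : ℝ) (hσ : |σ| ≤ 1)
    (X : Finset {z : GaussianInt // Prime z})
    (hX : ∀ z ∈ X, x ≤ sco u₁ u₂ z ∧ sco u₁ u₂ z ≤ x + B ∧
      |hco u₁ u₂ z - (σ * sco u₁ u₂ z + b)| ≤ 3 * Real.exp k ∧
      StartsPath D k z ∧ (B : ℝ) < ‖GaussianInt.toComplex z‖) :
    (X.card : ℝ) ≤ (2 * B) * (Real.exp (-(4 * k)) / (8 * D ^ 2)) := by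
  set e : ℝ := Real.exp k with he
  have he0 : 0 < e := Real.exp_pos _
  have hB0 : (0 : ℝ) < B := by linarith only [he0, hBk]
  set n : ℝ := Real.sqrt (1 + σ ^ 2) with hn
  have hn2 : n ^ 2 = 1 + σ ^ 2 := Real.sq_sqrt (by positivity)
  have hσ2 : σ ^ 2 ≤ 1 := by
    rw [← sq_abs]; nlinarith only [hσ, abs_nonneg σ]
  have hn1 : 1 ≤ n := by
    rw [hn]; apply Real.one_le_sqrt.2; linarith only [sq_nonneg σ]
  have hn0 : 0 < n := by linarith only [hn1]
  have hn3 : n ≤ 3 / 2 := by nlinarith only [hn2, hσ2, hn1]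
  have hunit : ((u₁ - σ * u₂) / n) ^ 2 + ((u₂ + σ * u₁) / n) ^ 2 = 1 := by
    rw [div_pow, div_pow, ← add_div, div_eq_one_iff_eq (by positivity), hn2]
    linear_combination (1 + σ ^ 2) * hu
  have hh : ∀ z : GaussianInt, hco ((u₁ - σ * u₂) / n) ((u₂ + σ * u₁) / n) z =
      (hco u₁ u₂ z - σ * sco u₁ u₂ z) / n := by
    intro z; simp only [hco, sco]; field_simp; ring
  have hs : ∀ z : GaussianInt, sco ((u₁ - σ * u₂) / n) ((u₂ + σ * u₁) / n) z =
      (sco u₁ u₂ z + σ * hco u₁ u₂ z) / n := by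
    intro z; simp only [hco, sco]; field_simp; ring
  refine hB _ _ hunit ((x * (1 + σ ^ 2) + σ * b - 3 * e) / n) (b / n) (2 * B)
    (by linarith only [hB0]) X ?_
  intro z hz
  obtain ⟨g1, g2, g3, g4, g5⟩ := hX z hz
  set s : ℝ := sco u₁ u₂ z with hsdef
  set h : ℝ := hco u₁ u₂ z with hhdef
  set t : ℝ := h - (σ * s + b) with ht
  have hσt : |σ * t| ≤ 3 * e := by
    rw [abs_mul]
    calc |σ| * |t| ≤ 1 * (3 * e) := mul_le_mul hσ g3 (abs_nonneg _) (by norm_num)
      _ = 3 * e := one_mul _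
  have hσt' := abs_le.1 hσt
  have hval : s + σ * h = s * (1 + σ ^ 2) + σ * b + σ * t := by rw [ht]; ring
  refine ⟨?_, ?_, ?_, g4, g5⟩
  · rw [hs]
    apply div_le_div_of_nonneg_right _ hn0.le
    rw [hval]
    nlinarith only [g1, hσt'.1, sq_nonneg σ]
  · rw [hs]
    have h1 : s + σ * h ≤ (x * (1 + σ ^ 2) + σ * b - 3 * e) + n * (2 * B) := by
      rw [hval]
      have h2 : s * (1 + σ ^ 2) ≤ x * (1 + σ ^ 2) + B * (1 + σ ^ 2) := by
        nlinarith only [g2, sq_nonneg σ]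
      have h3 : B * (1 + σ ^ 2) ≤ n * (3 / 2 * B) := by
        rw [← hn2]
        nlinarith only [hn3, hn0, hB0, mul_nonneg hn0.le hB0.le]
      have h4 : 6 * e ≤ n * (1 / 2 * B) := by nlinarith only [hn1, hBk, hB0]
      linarith only [h2, h3, h4, hσt'.2]
    calc (s + σ * h) / n ≤ ((x * (1 + σ ^ 2) + σ * b - 3 * e) + n * (2 * B)) / n :=
          div_le_div_of_nonneg_right h1 hn0.le
      _ = (x * (1 + σ ^ 2) + σ * b - 3 * e) / n + 2 * B := by
          rw [add_div, mul_div_cancel_left₀ _ hn0.ne']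
  · rw [hh, ← sub_div]
    have h1 : h - σ * s - b = t := by rw [ht]; ring
    rw [h1, abs_div, abs_of_pos hn0, div_le_iff₀ hn0]
    nlinarith only [g3, hn1, he0]

/-- Deviation of a convex function from its chords. -/
theorem convex_dev {f : ℝ → ℝ} (hf : ConvexOn ℝ Set.univ f) {x ℓ s : ℝ} (hℓ : 0 < ℓ)
    (h1 : x ≤ s) (h2 : s ≤ x + ℓ) :
    |f s - ((f (x + ℓ) - f x) / ℓ * s + (f x - (f (x + ℓ) - f x) / ℓ * x))| ≤
      ((f (x + ℓ) - f x) / ℓ - (f x - f (x - ℓ)) / ℓ) * ℓ := by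
  set σ : ℝ := (f (x + ℓ) - f x) / ℓ with hσ
  set σ' : ℝ := (f x - f (x - ℓ)) / ℓ with hσ'
  have hσσ : σ' ≤ σ := by
    have h3 := hf.slope_mono_adjacent (x := x - ℓ) (y := x) (z := x + ℓ) (Set.mem_univ _)
      (Set.mem_univ _) (by linarith only [hℓ]) (by linarith only [hℓ])
    have h4 : x - (x - ℓ) = ℓ := by ring
    have h5 : x + ℓ - x = ℓ := by ring
    rw [h4, h5] at h3
    exact h3
  have hup : f s ≤ f x + σ * (s - x) := by
    rcases eq_or_lt_of_le h1 with h | h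
    · rw [← h]; simp
    rcases eq_or_lt_of_le h2 with h' | h'
    · rw [h']
      have : σ * (x + ℓ - x) = f (x + ℓ) - f x := by rw [hσ]; field_simp; ring
      rw [this]; linarith only []
    · have h3 := hf.secant_mono (a := x) (x := s) (y := x + ℓ) (Set.mem_univ _) (Set.mem_univ _)
        (Set.mem_univ _) h.ne' (by linarith only [hℓ]) h'.le
      have h5 : x + ℓ - x = ℓ := by ring
      rw [h5, ← hσ, div_le_iff₀ (by linarith only [h])] at h3
      linarith only [h3]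
  have hlow : f x + σ' * (s - x) ≤ f s := by
    rcases eq_or_lt_of_le h1 with h | h
    · rw [← h]; simp
    · have h3 := hf.slope_mono_adjacent (x := x - ℓ) (y := x) (z := s) (Set.mem_univ _)
        (Set.mem_univ _) (by linarith only [hℓ]) h
      have h4 : x - (x - ℓ) = ℓ := by ring
      rw [h4, ← hσ', le_div_iff₀ (by linarith only [h])] at h3
      linarith only [h3]
  have hsx : 0 ≤ s - x := by linarith only [h1]
  have hsx2 : s - x ≤ ℓ := by linarith only [h2]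
  rw [abs_le]
  constructor
  · nlinarith only [hlow, hσσ, hsx, hsx2]
  · nlinarith only [hup, hσσ, hsx, hsx2, hℓ]

/-- Count of the starts of `k`-paths near the graph of a convex `1`-Lipschitz function. -/
theorem graph_starts {D : ℝ} {k B : ℕ} (hD : 1 ≤ D) (hB : StripBound D k B)
    (hBk : 12 * Real.exp k ≤ B)
    {u₁ u₂ : ℝ} (hu : u₁ ^ 2 + u₂ ^ 2 = 1) (f : ℝ → ℝ) (hf : ConvexOn ℝ Set.univ f)
    (hf1 : ∀ x y, |f x - f y| ≤ |x - y|) (s0 : ℝ) (m : ℕ)
    (X : Finset {z : GaussianInt // Prime z})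
    (hX : ∀ z ∈ X, s0 ≤ sco u₁ u₂ z ∧ sco u₁ u₂ z < s0 + m * B ∧
      |hco u₁ u₂ z - f (sco u₁ u₂ z)| ≤ 2 * Real.exp k ∧
      StartsPath D k z ∧ (B : ℝ) < ‖GaussianInt.toComplex z‖) :
    (X.card : ℝ) ≤ m * ((2 * B) * (Real.exp (-(4 * k)) / (8 * D ^ 2))) + 200 * B ^ 3 := by
  classical
  set e : ℝ := Real.exp k with he
  have he0 : 0 < e := Real.exp_pos _
  have he1 : 1 ≤ e := Real.one_le_exp (Nat.cast_nonneg k)
  have hB0 : (0 : ℝ) < B := by linarith only [he0, hBk]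
  have hB12 : (12 : ℝ) ≤ B := by linarith only [he1, hBk]
  set θ : ℝ := Real.exp (-(4 * k)) / (8 * D ^ 2) with hθ
  have hθ0 : 0 < θ := by positivity
  -- the slopes
  let σ : ℕ → ℝ := fun i => (f (s0 + i * B) - f (s0 + i * B - B)) / B
  have hσ1 : ∀ i, |σ i| ≤ 1 := by
    intro i
    simp only [σ]
    rw [abs_div, abs_of_pos hB0, div_le_one hB0]
    refine (hf1 _ _).trans (le_of_eq ?_)
    have : s0 + i * B - (s0 + i * B - B) = (B : ℝ) := by ring
    rw [this, abs_of_pos hB0]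
  have hσsucc : ∀ i : ℕ, σ (i + 1) = (f (s0 + i * B + B) - f (s0 + i * B)) / B := by
    intro i
    simp only [σ]
    push_cast
    have h1 : s0 + (i + 1) * (B : ℝ) = s0 + i * B + B := by ring
    have h2 : s0 + i * (B : ℝ) + B - B = s0 + i * B := by ring
    rw [h1, h2]
  have hmono : ∀ i : ℕ, σ i ≤ σ (i + 1) := by
    intro i
    rw [hσsucc]
    have h3 := hf.slope_mono_adjacent (x := s0 + i * B - B) (y := s0 + i * B)
      (z := s0 + i * B + B) (Set.mem_univ _)
      (Set.mem_univ _) (by linarith only [hB0]) (by linarith only [hB0])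
    have h4 : s0 + i * (B : ℝ) - (s0 + i * B - B) = B := by ring
    have h5 : s0 + i * (B : ℝ) + B - (s0 + i * B) = B := by ring
    rw [h4, h5] at h3
    exact h3
  -- pieces
  let Xi : ℕ → Finset {z : GaussianInt // Prime z} := fun i => X.filter (fun z =>
      s0 + i * B ≤ sco u₁ u₂ z.1 ∧ sco u₁ u₂ z.1 ≤ s0 + i * B + B)
  have hcover : X ⊆ (Finset.range m).biUnion Xi := by
    intro z hz
    rw [Finset.mem_biUnion]
    obtain ⟨g1, g2, -⟩ := hX z hz
    set i : ℕ := ⌊(sco u₁ u₂ z - s0) / B⌋₊ with hi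
    have h0' : 0 ≤ (sco u₁ u₂ z - s0) / B := div_nonneg (by linarith only [g1]) hB0.le
    have h1 : (i : ℝ) ≤ (sco u₁ u₂ z - s0) / B := Nat.floor_le h0'
    have h2 : (sco u₁ u₂ z - s0) / B < i + 1 := Nat.lt_floor_add_one _
    rw [le_div_iff₀ hB0] at h1
    rw [div_lt_iff₀ hB0] at h2
    refine ⟨i, ?_, ?_⟩
    · rw [Finset.mem_range]
      have h3 : (i : ℝ) * B < m * B := by linarith only [h1, g2]
      have h4 : (i : ℝ) < m := lt_of_mul_lt_mul_right h3 hB0.le
      exact_mod_cast h4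
    · simp only [Xi, Finset.mem_filter]
      exact ⟨hz, by linarith only [h1], by linarith only [h2]⟩
  have hsum : (X.card : ℝ) ≤ ∑ i ∈ Finset.range m, ((Xi i).card : ℝ) := by
    have h1 := le_trans (Finset.card_le_card hcover) Finset.card_biUnion_le
    exact_mod_cast h1
  -- each piece
  have hpiece : ∀ i : ℕ, ((Xi i).card : ℝ) ≤ (2 * B) * θ + (100 * B ^ 3) * (σ (i + 1) - σ i) := by
    intro i
    have hd0 : 0 ≤ σ (i + 1) - σ i := by linarith only [hmono i]
    by_cases hgood : (σ (i + 1) - σ i) * B ≤ e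
    · have h1 : ((Xi i).card : ℝ) ≤ (2 * B) * θ := by
        apply good_piece hB hBk hu (s0 + i * B) (σ (i + 1))
          (f (s0 + i * B) - σ (i + 1) * (s0 + i * B)) (hσ1 _)
        intro z hz
        simp only [Xi, Finset.mem_filter] at hz
        obtain ⟨hz0, hz1, hz2⟩ := hz
        obtain ⟨-, -, g3, g4, g5⟩ := hX z hz0
        refine ⟨hz1, hz2, ?_, g4, g5⟩
        have h2 := convex_dev hf hB0 hz1 hz2
        rw [← hσsucc] at h2
        have h3 : (σ (i + 1) - (f (s0 + i * B) - f (s0 + i * B - B)) / B) * B ≤ e := hgood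
        have h4 : hco u₁ u₂ z - (σ (i + 1) * sco u₁ u₂ z +
            (f (s0 + i * B) - σ (i + 1) * (s0 + i * B))) =
            (hco u₁ u₂ z - f (sco u₁ u₂ z)) + (f (sco u₁ u₂ z) - (σ (i + 1) * sco u₁ u₂ z +
            (f (s0 + i * B) - σ (i + 1) * (s0 + i * B)))) := by ring
        rw [h4]
        refine (abs_add_le _ _).trans ?_
        linarith only [h2, h3, g3]
      have h5 : 0 ≤ (100 * (B : ℝ) ^ 3) * (σ (i + 1) - σ i) := by positivity
      linarith only [h1, h5]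
    · push Not at hgood
      have h1 : ((Xi i).card : ℝ) ≤ (4 * (2 * B) + 1) ^ 2 := by
        apply crude_box hu (Xi i) (s0 + i * B) (f (s0 + i * B)) (2 * B) (by positivity)
        intro z hz
        simp only [Xi, Finset.mem_filter] at hz
        obtain ⟨hz0, hz1, hz2⟩ := hz
        obtain ⟨-, -, g3, -, -⟩ := hX z hz0
        constructor
        · rw [abs_le]
          exact ⟨by linarith only [hz1, hB0], by linarith only [hz2, hB0]⟩
        · have h2 := hf1 (sco u₁ u₂ z) (s0 + i * B)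
          have h3 : |sco u₁ u₂ z - (s0 + i * B)| ≤ B := by
            rw [abs_le]
            exact ⟨by linarith only [hz1, hB0], by linarith only [hz2]⟩
          have h4 : hco u₁ u₂ z - f (s0 + i * B) = (hco u₁ u₂ z - f (sco u₁ u₂ z)) +
            (f (sco u₁ u₂ z) - f (s0 + i * B)) := by ring
          rw [h4]
          refine (abs_add_le _ _).trans ?_
          linarith only [h2, h3, g3, hBk, he0]
      have h2 : (4 * (2 * (B : ℝ)) + 1) ^ 2 ≤ 100 * B ^ 2 := by nlinarith only [hB12]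
      have h3 : 1 ≤ (σ (i + 1) - σ i) * B := by linarith only [he1, hgood]
      have h4 : 100 * (B : ℝ) ^ 2 ≤ (100 * B ^ 3) * (σ (i + 1) - σ i) := by
        have h5 : 100 * (B : ℝ) ^ 2 * 1 ≤ 100 * B ^ 2 * ((σ (i + 1) - σ i) * B) :=
          mul_le_mul_of_nonneg_left h3 (by positivity)
        calc 100 * (B : ℝ) ^ 2 = 100 * (B : ℝ) ^ 2 * 1 := by ring
          _ ≤ 100 * B ^ 2 * ((σ (i + 1) - σ i) * B) := h5
          _ = (100 * B ^ 3) * (σ (i + 1) - σ i) := by ring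
      have h6 : 0 ≤ (2 * (B : ℝ)) * θ := by positivity
      linarith only [h1, h2, h4, h6]
  refine hsum.trans ((Finset.sum_le_sum fun i _ => hpiece i).trans ?_)
  rw [Finset.sum_add_distrib, Finset.sum_const, Finset.card_range, nsmul_eq_mul,
    ← Finset.mul_sum, Finset.sum_range_sub]
  have h1 := abs_le.1 (hσ1 m)
  have h2 := abs_le.1 (hσ1 0)
  have h3 : 100 * (B : ℝ) ^ 3 * (σ m - σ 0) ≤ 100 * (B : ℝ) ^ 3 * 2 :=
    mul_le_mul_of_nonneg_left (by linarith only [h1.2, h2.1]) (by positivity)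
  linarith only [h3]

end Vale.Agent.P015.H807
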