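import Vale.Agent.P015.H807.GraphCount
import Mathlib.Analysis.Normed.Affine.AddTorsorBases

/-!
The boundary of a planar convex set is covered by the graphs of four convex functions with
Lipschitz constant `1`, in four coordinate frames.
-/

open Finset Filter Topology

namespace Vale.Agent.P015.H807

open Vale.Agent.P015

/-- coordinate along the unit vector `(u₁, u₂)` -/
noncomputable def cs (u : ℝ × ℝ) (x : ℂ) : ℝ := u.1 * x.re + u.2 * x.im

/-- coordinate orthogonal to the unit vector `(u₁, u₂)` -/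
noncomputable def ch (u : ℝ × ℝ) (x : ℂ) : ℝ := u.1 * x.im - u.2 * x.re

theorem sco_eq (u : ℝ × ℝ) (z : GaussianInt) : sco u.1 u.2 z = cs u (GaussianInt.toComplex z) := by
  simp only [sco, cs, GaussianInt.intCast_re, GaussianInt.intCast_im]

theorem hco_eq (u : ℝ × ℝ) (z : GaussianInt) : hco u.1 u.2 z = ch u (GaussianInt.toComplex z) := by
  simp only [hco, ch, GaussianInt.intCast_re, GaussianInt.intCast_im]

theorem cs_sq_add_ch_sq {u : ℝ × ℝ} (hu : u.1 ^ 2 + u.2 ^ 2 = 1) (x y : ℂ) :
    (cs u x - cs u y) ^ 2 + (ch u x - ch u y) ^ 2 = dist x y ^ 2 := by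
  rw [dist_eq_norm, ← Complex.normSq_eq_norm_sq, Complex.normSq_apply]
  simp only [cs, ch, Complex.sub_re, Complex.sub_im]
  linear_combination ((x.re - y.re) ^ 2 + (x.im - y.im) ^ 2) * hu

theorem abs_cs_sub_le {u : ℝ × ℝ} (hu : u.1 ^ 2 + u.2 ^ 2 = 1) (x y : ℂ) :
    |cs u x - cs u y| ≤ dist x y := by
  apply abs_le_of_sq_le_sq _ dist_nonneg
  rw [← cs_sq_add_ch_sq hu]
  linarith only [sq_nonneg (ch u x - ch u y)]

theorem abs_ch_sub_le {u : ℝ × ℝ} (hu : u.1 ^ 2 + u.2 ^ 2 = 1) (x y : ℂ) :
    |ch u x - ch u y| ≤ dist x y := by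
  apply abs_le_of_sq_le_sq _ dist_nonneg
  rw [← cs_sq_add_ch_sq hu]
  linarith only [sq_nonneg (cs u x - cs u y)]

/-- Support lines of planar convex sets. -/
theorem exists_normal {K : Set ℂ} (hK : Convex ℝ K) {q : ℂ} (hq : q ∈ frontier K) :
    ∃ a b : ℝ, (a ≠ 0 ∨ b ≠ 0) ∧ ∀ x ∈ K, a * (x.re - q.re) + b * (x.im - q.im) ≤ 0 := by
  have hmain : ∃ f : ℂ →L[ℝ] ℝ, f ≠ 0 ∧ ∀ x ∈ K, f x ≤ f q := by
    by_cases hint : (interior K).Nonempty
    · exact geometric_hahn_banach_of_nonempty_interior_point hK hq.2 hint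
    · have hne : K.Nonempty := by
        have h1 := hq.1
        exact closure_nonempty_iff.1 ⟨q, h1⟩
      rw [hK.interior_nonempty_iff_affineSpan_eq_top,
        AffineSubspace.affineSpan_eq_top_iff_vectorSpan_eq_top_of_nonempty ℝ ℂ ℂ hne] at hint
      obtain ⟨f, hf0, hf⟩ := Submodule.exists_le_ker_of_lt_top (vectorSpan ℝ K)
        (lt_top_iff_ne_top.2 hint)
      refine ⟨LinearMap.toContinuousLinearMap f, ?_, ?_⟩
      · intro h
        apply hf0
        refine LinearMap.ext fun x => ?_
        have h1 := congrArg (fun g : ℂ →L[ℝ] ℝ => g x) h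
        simpa using h1
      · intro x hx
        have hconst : ∀ y ∈ K, f y = f x := by
          intro y hy
          have h1 : y - x ∈ vectorSpan ℝ K := vsub_mem_vectorSpan ℝ hy hx
          have h2 := hf h1
          rw [LinearMap.mem_ker, map_sub] at h2
          linarith only [h2]
        have hcl : IsClosed {y : ℂ | LinearMap.toContinuousLinearMap f y = f x} :=
          isClosed_eq (LinearMap.toContinuousLinearMap f).continuous continuous_const
        have h3 : q ∈ {y : ℂ | LinearMap.toContinuousLinearMap f y = f x} :=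
          closure_minimal (fun y hy => hconst y hy) hcl hq.1
        have h4 : LinearMap.toContinuousLinearMap f q = f x := h3
        rw [h4]
        simp
  obtain ⟨f, hf0, hf⟩ := hmain
  have hval : ∀ x : ℂ, f x = f 1 * x.re + f Complex.I * x.im := by
    intro x
    have hx : x = x.re • (1 : ℂ) + x.im • Complex.I := by
      simp [Complex.real_smul, Complex.re_add_im]
    conv_lhs => rw [hx]
    rw [map_add, map_smul, map_smul, smul_eq_mul, smul_eq_mul]
    ring
  refine ⟨f 1, f Complex.I, ?_, ?_⟩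
  · by_contra hcon
    push Not at hcon
    apply hf0
    ext x
    rw [hval x, hcon.1, hcon.2]
    simp
  · intro x hx
    have h1 := hf x hx
    rw [hval x, hval q] at h1
    linarith only [h1]

/-- The lower boundary function of `K + {|s| ≤ h}` in the frame `u`. -/
noncomputable def lowerFun (K : Set ℂ) (u : ℝ × ℝ) (s : ℝ) : ℝ :=
  ⨅ x : K, (ch u x.1 + |s - cs u x.1|)

/-- boundedness condition under which `lowerFun` is meaningful -/
def LowerOK (K : Set ℂ) (u : ℝ × ℝ) : Prop :=
  K.Nonempty ∧ ∃ s₀ c : ℝ, ∀ x ∈ K, c ≤ ch u x + |s₀ - cs u x|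

theorem LowerOK.bdd {K : Set ℂ} {u : ℝ × ℝ} (h : LowerOK K u) (s : ℝ) :
    BddBelow (Set.range fun x : K => ch u x.1 + |s - cs u x.1|) := by
  obtain ⟨-, s₀, c, hc⟩ := h
  refine ⟨c - |s - s₀|, ?_⟩
  rintro _ ⟨x, rfl⟩
  have h1 := hc x.1 x.2
  have h2 : |s₀ - cs u x.1| ≤ |s - s₀| + |s - cs u x.1| := by
    have h3 := abs_sub_le s₀ s (cs u x.1)
    rw [abs_sub_comm s₀ s] at h3
    exact h3
  dsimp only
  linarith only [h1, h2]

theorem LowerOK.lipschitz {K : Set ℂ} {u : ℝ × ℝ} (h : LowerOK K u) (s t : ℝ) :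
    |lowerFun K u s - lowerFun K u t| ≤ |s - t| := by
  have : Nonempty K := h.1.to_subtype
  have key : ∀ s t : ℝ, lowerFun K u s ≤ lowerFun K u t + |s - t| := by
    intro s t
    have h1 : lowerFun K u s - |s - t| ≤ lowerFun K u t := by
      apply le_ciInf
      intro x
      have h2 := ciInf_le (h.bdd s) x
      have h3 := abs_sub_le s t (cs u x.1)
      unfold lowerFun
      linarith only [h2, h3]
    linarith only [h1]
  rw [abs_le]
  constructor
  · have h1 := key t s
    rw [abs_sub_comm t s] at h1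
    linarith only [h1]
  · linarith only [key s t]

theorem LowerOK.convexOn {K : Set ℂ} (hK : Convex ℝ K) {u : ℝ × ℝ} (h : LowerOK K u) :
    ConvexOn ℝ Set.univ (lowerFun K u) := by
  have : Nonempty K := h.1.to_subtype
  refine ⟨convex_univ, ?_⟩
  intro s _ t _ a b ha hb hab
  simp only [smul_eq_mul]
  apply le_of_forall_pos_le_add
  intro ε hε
  obtain ⟨x, hx⟩ := exists_lt_of_ciInf_lt (show lowerFun K u s < lowerFun K u s + ε by
    linarith only [hε])
  obtain ⟨y, hy⟩ := exists_lt_of_ciInf_lt (show lowerFun K u t < lowerFun K u t + ε by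
    linarith only [hε])
  have hxy : a • x.1 + b • y.1 ∈ K := hK x.2 y.2 ha hb hab
  have h1 := ciInf_le (h.bdd (a * s + b * t)) ⟨_, hxy⟩
  have h2 : cs u (a • x.1 + b • y.1) = a * cs u x.1 + b * cs u y.1 := by
    simp only [cs, Complex.add_re, Complex.add_im, Complex.smul_re, Complex.smul_im, smul_eq_mul]
    ring
  have h3 : ch u (a • x.1 + b • y.1) = a * ch u x.1 + b * ch u y.1 := by
    simp only [ch, Complex.add_re, Complex.add_im, Complex.smul_re, Complex.smul_im, smul_eq_mul]
    ring
  dsimp only at h1 hx hy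
  rw [h2, h3] at h1
  have h4 : |a * s + b * t - (a * cs u x.1 + b * cs u y.1)| ≤
      a * |s - cs u x.1| + b * |t - cs u y.1| := by
    have h5 : a * s + b * t - (a * cs u x.1 + b * cs u y.1) =
      a * (s - cs u x.1) + b * (t - cs u y.1) := by ring
    rw [h5]
    refine (abs_add_le _ _).trans ?_
    rw [abs_mul, abs_mul, abs_of_nonneg ha, abs_of_nonneg hb]
  have h6 : a * (ch u x.1 + |s - cs u x.1|) ≤ a * (lowerFun K u s + ε) :=
    mul_le_mul_of_nonneg_left hx.le ha
  have h7 : b * (ch u y.1 + |t - cs u y.1|) ≤ b * (lowerFun K u t + ε) :=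
    mul_le_mul_of_nonneg_left hy.le hb
  have h8 : a * ε + b * ε = ε := by rw [← add_mul, hab, one_mul]
  have h9 : lowerFun K u (a * s + b * t) ≤ a * ch u x.1 + b * ch u y.1 +
      |a * s + b * t - (a * cs u x.1 + b * cs u y.1)| := h1
  linarith only [h4, h6, h7, h8, h9]

/-- the four frames -/
def frame (i : Fin 4) : ℝ × ℝ :=
  match i with
  | 0 => (1, 0)
  | 1 => (-1, 0)
  | 2 => (0, 1)
  | 3 => (0, -1)

theorem frame_unit (i : Fin 4) : (frame i).1 ^ 2 + (frame i).2 ^ 2 = 1 := by
  fin_cases i <;> norm_num [frame]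

theorem exists_frame {a b : ℝ} (hab : a ≠ 0 ∨ b ≠ 0) : ∃ i : Fin 4,
    0 < -((frame i).1 * b - (frame i).2 * a) ∧
    |(frame i).1 * a + (frame i).2 * b| ≤ -((frame i).1 * b - (frame i).2 * a) := by
  rcases le_total |a| |b| with h | h
  · have hb : b ≠ 0 := by
      rcases hab with h1 | h1
      · intro h2
        rw [h2, abs_zero] at h
        exact h1 (abs_nonpos_iff.1 h)
      · exact h1
    rcases lt_or_gt_of_ne hb with h1 | h1
    · refine ⟨0, ?_, ?_⟩
      · simp only [frame]; linarith only [h1]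
      · simp only [frame]
        rw [abs_of_neg h1] at h
        have : (1 : ℝ) * a + 0 * b = a := by ring
        rw [this]; linarith only [h]
    · refine ⟨1, ?_, ?_⟩
      · simp only [frame]; linarith only [h1]
      · simp only [frame]
        rw [abs_of_pos h1] at h
        have : (-1 : ℝ) * a + 0 * b = -a := by ring
        rw [this, abs_neg]; linarith only [h]
  · have ha : a ≠ 0 := by
      rcases hab with h1 | h1
      · exact h1
      · intro h2
        rw [h2, abs_zero] at h
        exact h1 (abs_nonpos_iff.1 h)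
    rcases lt_or_gt_of_ne ha with h1 | h1
    · refine ⟨3, ?_, ?_⟩
      · simp only [frame]; linarith only [h1]
      · simp only [frame]
        rw [abs_of_neg h1] at h
        have : (0 : ℝ) * a + -1 * b = -b := by ring
        rw [this, abs_neg]; linarith only [h]
    · refine ⟨2, ?_, ?_⟩
      · simp only [frame]; linarith only [h1]
      · simp only [frame]
        rw [abs_of_pos h1] at h
        have : (0 : ℝ) * a + 1 * b = b := by ring
        rw [this]; linarith only [h]

/-- Every boundary point of `K` is on the graph of `lowerFun K (frame i)` for some `i`. -/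
theorem frontier_cover {K : Set ℂ} (hK : Convex ℝ K) {q : ℂ} (hq : q ∈ frontier K) :
    ∃ i : Fin 4, LowerOK K (frame i) ∧ lowerFun K (frame i) (cs (frame i) q) = ch (frame i) q := by
  obtain ⟨a, b, hab, hn⟩ := exists_normal hK hq
  obtain ⟨i, hi1, hi2⟩ := exists_frame hab
  set u := frame i with hu
  have hunit := frame_unit i
  rw [← hu] at hunit
  have hne : K.Nonempty := closure_nonempty_iff.1 ⟨q, hq.1⟩
  have hlow : ∀ x ∈ K, ch u q ≤ ch u x + |cs u q - cs u x| := by
    intro x hx
    have h1 := hn x hx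
    set A : ℝ := u.1 * a + u.2 * b with hA
    set H : ℝ := -(u.1 * b - u.2 * a) with hH
    have h2 : A * (cs u x - cs u q) - H * (ch u x - ch u q) =
        a * (x.re - q.re) + b * (x.im - q.im) := by
      simp only [hA, hH, cs, ch]
      linear_combination (a * (x.re - q.re) + b * (x.im - q.im)) * hunit
    have h3 : -(H * |cs u q - cs u x|) ≤ A * (cs u x - cs u q) := by
      have h4 : |A * (cs u x - cs u q)| ≤ H * |cs u q - cs u x| := by
        rw [abs_mul, abs_sub_comm (cs u x)]
        exact mul_le_mul_of_nonneg_right hi2 (abs_nonneg _)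
      exact (abs_le.1 h4).1
    have h5 : H * (ch u q - ch u x) ≤ H * |cs u q - cs u x| := by
      linarith only [h1, h2, h3]
    have h6 := le_of_mul_le_mul_left h5 hi1
    linarith only [h6]
  have hOK : LowerOK K u := ⟨hne, cs u q, ch u q, hlow⟩
  refine ⟨i, hOK, ?_⟩
  have : Nonempty K := hne.to_subtype
  apply le_antisymm
  · apply le_of_forall_pos_le_add
    intro ε hε
    obtain ⟨x, hx, hxq⟩ := Metric.mem_closure_iff.1 hq.1 (ε / 2) (by linarith only [hε])
    have h1 := ciInf_le (hOK.bdd (cs u q)) ⟨x, hx⟩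
    have h2 := abs_cs_sub_le hunit q x
    have h3 := abs_le.1 (abs_ch_sub_le hunit q x)
    unfold lowerFun
    dsimp only at h1
    linarith only [h1, h2, h3.1, hxq]
  · exact le_ciInf fun x => hlow x.1 x.2

end Vale.Agent.P015.H807
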