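import Vale.Agent.P015.H807.Poly

/-!
Curves whose two ends lie on boundaries of convex sets; polynomial curves.
-/

open Finset Filter Topology Polynomial

namespace Vale.Agent.P015.H807

open Vale.Agent.P015

/-- An arc with monotone slope lies on the boundary of a convex set. -/
theorem arc_end {σ₁ σ₂ t₀ : ℝ} (h1 : σ₁ * σ₁ = 1) (h2 : σ₂ * σ₂ = 1) (A B A' B' : ℝ → ℝ)
    (hA : ∀ t, t₀ ≤ t → HasDerivAt A (A' t) t) (hB : ∀ t, t₀ ≤ t → HasDerivAt B (B' t) t)
    (hpos : ∀ t, t₀ ≤ t → 0 < A' t)
    (hm : ∀ s t, t₀ ≤ s → s ≤ t → B' s / A' s ≤ B' t / A' t) :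
    ∃ K : Set ℂ, Convex ℝ K ∧ ∀ t, t₀ ≤ t → (⟨σ₁ * A t, σ₂ * B t⟩ : ℂ) ∈ frontier K := by
  refine ⟨{w : ℂ | ∀ s, t₀ ≤ s → B s + B' s / A' s * (σ₁ * w.re - A s) ≤ σ₂ * w.im}, ?_, ?_⟩
  · intro x hx y hy a b ha hb hab s hs
    have g1 := mul_le_mul_of_nonneg_left (hx s hs) ha
    have g2 := mul_le_mul_of_nonneg_left (hy s hs) hb
    simp only [Complex.add_re, Complex.add_im, Complex.smul_re, Complex.smul_im, smul_eq_mul]
    have g3 : b = 1 - a := by linarith only [hab]
    subst g3
    linarith only [g1, g2]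
  · intro t ht
    have hval1 : σ₁ * (σ₁ * A t) = A t := by rw [← mul_assoc, h1, one_mul]
    have hval2 : σ₂ * (σ₂ * B t) = B t := by rw [← mul_assoc, h2, one_mul]
    refine ⟨subset_closure ?_, ?_⟩
    · intro s hs
      simp only
      rw [hval1, hval2]
      -- compare at `t` and `s`
      have hder : ∀ τ, t₀ ≤ τ → HasDerivAt (fun x => B x - B' s / A' s * A x)
          (B' τ - B' s / A' s * A' τ) τ := fun τ hτ => (hB τ hτ).sub ((hA τ hτ).const_mul _)
      have hfac : ∀ τ, t₀ ≤ τ → B' τ - B' s / A' s * A' τ = A' τ * (B' τ / A' τ - B' s / A' s) := by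
        intro τ hτ
        have := hpos τ hτ
        field_simp
      have key : B s - B' s / A' s * A s ≤ B t - B' s / A' s * A t := by
        rcases le_total s t with hst | hst
        · have hmono : MonotoneOn (fun x => B x - B' s / A' s * A x) (Set.Icc s t) := by
            apply monotoneOn_of_deriv_nonneg (convex_Icc s t)
            · intro τ hτ
              exact (hder τ (hs.trans hτ.1)).continuousAt.continuousWithinAt
            · intro τ hτ
              rw [interior_Icc] at hτ
              exact (hder τ (hs.trans hτ.1.le)).differentiableAt.differentiableWithinAt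
            · intro τ hτ
              rw [interior_Icc] at hτ
              rw [(hder τ (hs.trans hτ.1.le)).deriv, hfac τ (hs.trans hτ.1.le)]
              exact mul_nonneg (hpos τ (hs.trans hτ.1.le)).le
                (sub_nonneg.2 (hm s τ hs hτ.1.le))
          exact hmono (Set.left_mem_Icc.2 hst) (Set.right_mem_Icc.2 hst) hst
        · have hanti : AntitoneOn (fun x => B x - B' s / A' s * A x) (Set.Icc t s) := by
            apply antitoneOn_of_deriv_nonpos (convex_Icc t s)
            · intro τ hτ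
              exact (hder τ (ht.trans hτ.1)).continuousAt.continuousWithinAt
            · intro τ hτ
              rw [interior_Icc] at hτ
              exact (hder τ (ht.trans hτ.1.le)).differentiableAt.differentiableWithinAt
            · intro τ hτ
              rw [interior_Icc] at hτ
              rw [(hder τ (ht.trans hτ.1.le)).deriv, hfac τ (ht.trans hτ.1.le)]
              exact mul_nonpos_of_nonneg_of_nonpos (hpos τ (ht.trans hτ.1.le)).le
                (sub_nonpos.2 (hm τ s (ht.trans hτ.1.le) hτ.2.le))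
          exact hanti (Set.left_mem_Icc.2 hst) (Set.right_mem_Icc.2 hst) hst
      linarith only [key]
    · intro hint
      obtain ⟨ε, hε, hball⟩ := Metric.isOpen_iff.1 isOpen_interior _ hint
      have h3 : (⟨σ₁ * A t, σ₂ * (B t - ε / 2)⟩ : ℂ) ∈
          Metric.ball (⟨σ₁ * A t, σ₂ * B t⟩ : ℂ) ε := by
        rw [Metric.mem_ball, Complex.dist_eq_re_im]
        simp only [sub_self]
        have : (0 : ℝ) ^ 2 + (σ₂ * (B t - ε / 2) - σ₂ * B t) ^ 2 = (σ₂ * σ₂) * (ε / 2) ^ 2 := by
          ring
        rw [this, h2, one_mul, Real.sqrt_sq (by linarith only [hε])]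
        linarith only [hε]
      have h4 := interior_subset (hball h3) t ht
      simp only at h4
      have h5 : σ₂ * (σ₂ * (B t - ε / 2)) = B t - ε / 2 := by rw [← mul_assoc, h2, one_mul]
      rw [hval1, h5, sub_self, mul_zero, add_zero] at h4
      linarith only [h4, hε]

theorem poly_sign_strict (Q : ℝ[X]) (hQ : Q ≠ 0) : ∃ σ : ℝ, σ * σ = 1 ∧
    ∀ᶠ x : ℝ in atTop, 0 < σ * Q.eval x := by
  have hne := Q.eventually_atTop_not_isRoot hQ
  rcases poly_sign Q with h | h
  · refine ⟨1, by norm_num, ?_⟩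
    filter_upwards [h, hne] with x h1 h2
    rw [one_mul]
    exact lt_of_le_of_ne h1 (fun h3 => h2 h3.symm)
  · refine ⟨-1, by norm_num, ?_⟩
    filter_upwards [h, hne] with x h1 h2
    have h3 : Q.eval x < 0 := lt_of_le_of_ne h1 (fun h3 => h2 h3)
    linarith only [h3]

theorem poly_sign_weak (Q : ℝ[X]) : ∃ σ : ℝ, σ * σ = 1 ∧
    ∀ᶠ x : ℝ in atTop, 0 ≤ σ * Q.eval x := by
  rcases poly_sign Q with h | h
  · refine ⟨1, by norm_num, ?_⟩
    filter_upwards [h] with x h1
    linarith only [h1]
  · refine ⟨-1, by norm_num, ?_⟩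
    filter_upwards [h] with x h1
    linarith only [h1]

/-- The end of a polynomial curve lies on the boundary of a convex set. -/
theorem poly_curve_end (P Q : ℝ[X]) : ∃ (T : ℝ) (K : Set ℂ), Convex ℝ K ∧
    ∀ t, T ≤ t → (⟨P.eval t, Q.eval t⟩ : ℂ) ∈ frontier K := by
  by_cases hP : derivative P = 0
  · -- a vertical line
    have hconst : ∀ t, P.eval t = P.eval 0 := by
      intro t
      have h1 : P = C (P.coeff 0) := eq_C_of_derivative_eq_zero hP
      rw [h1]; simp
    refine ⟨0, {w : ℂ | w.re ≤ P.eval 0}, ?_, ?_⟩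
    · intro x hx y hy a b ha hb hab
      have g1 := mul_le_mul_of_nonneg_left hx ha
      have g2 := mul_le_mul_of_nonneg_left hy hb
      have g3 : b = 1 - a := by linarith only [hab]
      subst g3
      simp only [Set.mem_ofPred_eq, Complex.add_re, Complex.smul_re, smul_eq_mul]
      linarith only [g1, g2]
    · intro t _
      refine ⟨subset_closure ?_, ?_⟩
      · simp only [Set.mem_ofPred_eq, hconst t, le_refl]
      · intro hint
        obtain ⟨ε, hε, hball⟩ := Metric.isOpen_iff.1 isOpen_interior _ hint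
        have h3 : (⟨P.eval t + ε / 2, Q.eval t⟩ : ℂ) ∈
            Metric.ball (⟨P.eval t, Q.eval t⟩ : ℂ) ε := by
          rw [Metric.mem_ball, Complex.dist_eq_re_im]
          simp only [sub_self]
          have : (P.eval t + ε / 2 - P.eval t) ^ 2 + (0 : ℝ) ^ 2 = (ε / 2) ^ 2 := by ring
          rw [this, Real.sqrt_sq (by linarith only [hε])]
          linarith only [hε]
        have h4' := interior_subset (hball h3)
        have h4 : P.eval t + ε / 2 ≤ P.eval 0 := h4'
        rw [hconst t] at h4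
        linarith only [h4, hε]
  · obtain ⟨σ₁, hσ₁, hev1⟩ := poly_sign_strict (derivative P) hP
    set W : ℝ[X] := derivative (derivative Q) * derivative P -
      derivative Q * derivative (derivative P) with hW
    obtain ⟨σ₃, hσ₃, hev2⟩ := poly_sign_weak W
    -- `σ₂ / σ₁` must be the sign of `W`
    set σ₂ : ℝ := σ₁ * σ₃ with hσ₂def
    have hσ₂ : σ₂ * σ₂ = 1 := by
      rw [hσ₂def]
      calc σ₁ * σ₃ * (σ₁ * σ₃) = (σ₁ * σ₁) * (σ₃ * σ₃) := by ring
        _ = 1 := by rw [hσ₁, hσ₃, one_mul]
    obtain ⟨T, hT⟩ := eventually_atTop.1 (hev1.and hev2)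
    obtain ⟨K, hK, hK'⟩ := arc_end (σ₁ := σ₁) (σ₂ := σ₂) (t₀ := T) hσ₁ hσ₂
      (fun t => σ₁ * P.eval t) (fun t => σ₂ * Q.eval t)
      (fun t => σ₁ * (derivative P).eval t) (fun t => σ₂ * (derivative Q).eval t)
      (fun t _ => (P.hasDerivAt t).const_mul _) (fun t _ => (Q.hasDerivAt t).const_mul _)
      (fun t ht => (hT t ht).1) (by
        have hq : ∀ τ, T ≤ τ → HasDerivAt
            (fun x => (σ₂ * (derivative Q).eval x) / (σ₁ * (derivative P).eval x))
            (((σ₂ * (derivative (derivative Q)).eval τ) * (σ₁ * (derivative P).eval τ) -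
              (σ₂ * (derivative Q).eval τ) * (σ₁ * (derivative (derivative P)).eval τ)) /
              (σ₁ * (derivative P).eval τ) ^ 2) τ := fun τ hτ =>
          (((derivative Q).hasDerivAt τ).const_mul _).div
            (((derivative P).hasDerivAt τ).const_mul _) (hT τ hτ).1.ne'
        intro s t hs hst
        have hmono : MonotoneOn
            (fun x => (σ₂ * (derivative Q).eval x) / (σ₁ * (derivative P).eval x))
            (Set.Icc s t) := by
          apply monotoneOn_of_deriv_nonneg (convex_Icc s t)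
          · intro τ hτ
            exact (hq τ (hs.trans hτ.1)).continuousAt.continuousWithinAt
          · intro τ hτ
            rw [interior_Icc] at hτ
            exact (hq τ (hs.trans hτ.1.le)).differentiableAt.differentiableWithinAt
          · intro τ hτ
            rw [interior_Icc] at hτ
            rw [(hq τ (hs.trans hτ.1.le)).deriv]
            apply div_nonneg _ (sq_nonneg _)
            have h3 := (hT τ (hs.trans hτ.1.le)).2
            rw [hW] at h3
            simp only [eval_sub, eval_mul] at h3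
            have h4 : (σ₂ * (derivative (derivative Q)).eval τ) * (σ₁ * (derivative P).eval τ) -
              (σ₂ * (derivative Q).eval τ) * (σ₁ * (derivative (derivative P)).eval τ) =
              (σ₁ * σ₁) * (σ₃ * ((derivative (derivative Q)).eval τ * (derivative P).eval τ -
                (derivative Q).eval τ * (derivative (derivative P)).eval τ)) := by
              rw [hσ₂def]; ring
            rw [h4, hσ₁, one_mul]
            exact h3
        exact hmono (Set.left_mem_Icc.2 hst) (Set.right_mem_Icc.2 hst) hst)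
    refine ⟨T, K, hK, ?_⟩
    intro t ht
    have h5 := hK' t ht
    rw [← mul_assoc, ← mul_assoc, hσ₁, hσ₂, one_mul, one_mul] at h5
    exact h5

/-- **Curves with convex ends.** -/
theorem curve_components (D : ℝ) : ∃ c : ℝ, 0 < c ∧
    ∀ (Γ : ℝ → ℂ) (T : ℝ) (K₀ K₁ : Set ℂ), Continuous Γ → Convex ℝ K₀ → Convex ℝ K₁ →
    (∀ t, T ≤ t → Γ t ∈ frontier K₀) → (∀ t, t ≤ -T → Γ t ∈ frontier K₁) →
    ∀ L : ((moatGraph D).induce (nearCurve Γ c)).ConnectedComponent, L.supp.Finite := by
  obtain ⟨c', hc', h⟩ := thin_components D (1 / 2) (by norm_num)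
  set c : ℝ := min (c' / 2) (1 / 4) with hcdef
  have hc : 0 < c := by rw [hcdef]; positivity
  have hcc : c ≤ c' / 2 := min_le_left _ _
  have hc4 : c ≤ 1 / 4 := min_le_right _ _
  refine ⟨c, hc, ?_⟩
  intro Γ A K₀ K₁ hΓ hK₀ hK₁ hK₀' hK₁'
  obtain ⟨b, hb⟩ : ∃ b : ℝ, ∀ x ∈ Set.Icc (-A) A, ‖Γ x‖ ≤ b :=
    (isCompact_Icc (a := -A) (b := A)).exists_bound_of_continuousOn hΓ.continuousOn
  obtain ⟨R₂, hR₂⟩ := eventually_atTop.1 ((width_le_half c hc4).and
    (eventually_ge_atTop (2 * |b| + 1)))
  obtain ⟨R₀, hR₀⟩ := eventually_atTop.1 (near_facts hc' (max 2 R₂))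
  apply h _ R₀
  intro z _ hzR
  obtain ⟨g1, g2, g3⟩ := hR₀ _ hzR
  refine ⟨2, fun j => if j = 0 then K₀ else K₁, ?_, ?_, ?_⟩
  · push_cast
    exact (le_max_left _ _).trans g1
  · intro j
    by_cases hj : j = 0
    · simp only [hj, if_true]; exact hK₀
    · simp only [hj, if_false]; exact hK₁
  · intro v hv hzv
    obtain ⟨x, hx⟩ := hv
    have h2 := norm_le_add_dist z.1 v.1
    have h3 := norm_le_add_dist v.1 z.1
    rw [dist_comm] at h3
    have hvR : R₂ ≤ ‖GaussianInt.toComplex v.1‖ := by
      have := (le_max_right 2 R₂).trans g3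
      linarith only [this, h3, hzv]
    obtain ⟨e1, e2⟩ := hR₂ _ hvR
    have hwidth : width c ‖GaussianInt.toComplex v.1‖ ≤ width c' ‖GaussianInt.toComplex z.1‖ := by
      have h4 : width c ‖GaussianInt.toComplex v.1‖ ≤ width (c' / 2) ‖GaussianInt.toComplex v.1‖ := by
        unfold width
        apply Real.exp_le_exp.2
        apply mul_le_mul_of_nonneg_right hcc
        have h5 := exp_one_le_log_sixteen (norm_nonneg (GaussianInt.toComplex v.1))
        have h6 := log16_pos (norm_nonneg (GaussianInt.toComplex v.1))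
        have h7 : 0 < Real.log (‖GaussianInt.toComplex v.1‖ + 16) :=
          lt_of_lt_of_le (Real.exp_pos 1) h5
        exact div_nonneg h7.le (by linarith only [h6])
      exact h4.trans (g2 _ (norm_nonneg _) (by linarith only [h2, hzv]))
    have hxA : x ∉ Set.Icc (-A) A := by
      intro hxA
      have h4 := hb x hxA
      have h5 : ‖GaussianInt.toComplex v.1‖ ≤ ‖Γ x‖ +
          dist (GaussianInt.toComplex v.1) (Γ x) := by
        have h6 := norm_add_le (Γ x) (GaussianInt.toComplex v.1 - Γ x)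
        rw [← dist_eq_norm, add_sub_cancel] at h6
        exact h6
      have h7 := le_abs_self b
      linarith only [h4, h5, hx, e1, e2, h7]
    rw [Set.mem_Icc, not_and_or, not_le, not_le] at hxA
    rcases hxA with hxA | hxA
    · refine ⟨1, Γ x, ?_, hx.trans hwidth⟩
      simp only [Fin.isValue, one_ne_zero, if_false]
      exact hK₁' x hxA.le
    · refine ⟨0, Γ x, ?_, hx.trans hwidth⟩
      simp only [Fin.isValue, if_true]
      exact hK₀' x hxA.le

/-- **Polynomial curves** have convex ends. -/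
theorem poly_curve_convex_ends (P Q : ℝ[X]) : ∃ (Γ : ℝ → ℂ) (T : ℝ) (K₀ K₁ : Set ℂ),
    Continuous Γ ∧ Convex ℝ K₀ ∧ Convex ℝ K₁ ∧ (∀ t, T ≤ t → Γ t ∈ frontier K₀) ∧
    (∀ t, t ≤ -T → Γ t ∈ frontier K₁) ∧ (fun t : ℝ => (⟨P.eval t, Q.eval t⟩ : ℂ)) = Γ := by
  obtain ⟨T₀, K₀, hK₀, hK₀'⟩ := poly_curve_end P Q
  obtain ⟨T₁, K₁, hK₁, hK₁'⟩ := poly_curve_end (P.comp (-X)) (Q.comp (-X))
  have hcont : Continuous fun t : ℝ => (⟨P.eval t, Q.eval t⟩ : ℂ) := by
    have : (fun t : ℝ => (⟨P.eval t, Q.eval t⟩ : ℂ)) =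
        fun t : ℝ => ((P.eval t : ℝ) : ℂ) + ((Q.eval t : ℝ) : ℂ) * Complex.I := by
      funext t
      apply Complex.ext <;> simp
    rw [this]
    have h1 : Continuous fun t : ℝ => P.eval t := P.continuous
    have h2 : Continuous fun t : ℝ => Q.eval t := Q.continuous
    fun_prop
  refine ⟨fun t => ⟨P.eval t, Q.eval t⟩, max T₀ T₁, K₀, K₁, hcont, hK₀, hK₁, ?_, ?_, rfl⟩
  · intro t ht
    exact hK₀' t ((le_max_left _ _).trans ht)
  · intro t ht
    have h1 := hK₁' (-t) (by linarith only [le_max_right T₀ T₁, ht])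
    simp only [eval_comp, eval_neg, eval_X, neg_neg] at h1
    exact h1

end Vale.Agent.P015.H807
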