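import Vale.Agent.P015.H807.Curves
import Mathlib.Analysis.Polynomial.Basic

/-!
Signs of real polynomials near infinity.
-/

open Finset Filter Topology Polynomial

namespace Vale.Agent.P015.H807

open Vale.Agent.P015

theorem poly_sign (Q : ℝ[X]) : (∀ᶠ x : ℝ in atTop, 0 ≤ Q.eval x) ∨
    (∀ᶠ x : ℝ in atTop, Q.eval x ≤ 0) := by
  by_cases hdeg : 0 < Q.degree
  · rcases le_total 0 Q.leadingCoeff with h | h
    · exact Or.inl ((Q.tendsto_atTop_of_leadingCoeff_nonneg hdeg h).eventually_ge_atTop 0)
    · exact Or.inr ((Q.tendsto_atBot_of_leadingCoeff_nonpos hdeg h).eventually_le_atBot 0)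
  · push Not at hdeg
    rw [eq_C_of_degree_le_zero hdeg]
    simp only [eval_C]
    rcases le_total 0 (Q.coeff 0) with h | h
    · exact Or.inl (Eventually.of_forall fun _ => h)
    · exact Or.inr (Eventually.of_forall fun _ => h)

end Vale.Agent.P015.H807
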