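import Vale.Agent.P015.H807.Confine
import Vale.Agent.P015.H807.Defs

/-!
Passage to the width function, and finiteness of components.
-/

open Finset Filter Topology

namespace Vale.Agent.P015.H807

open Vale.Agent.P015

theorem width_pos (c r : ℝ) : 0 < width c r := Real.exp_pos _

theorem log16_pos {r : ℝ} (hr : 0 ≤ r) : 1 ≤ Real.log (Real.log (r + 16)) := by
  have h1 := exp_one_le_log_sixteen hr
  have h2 : 0 < Real.log (r + 16) := lt_of_lt_of_le (Real.exp_pos 1) h1
  exact (Real.le_log_iff_exp_le h2).2 h1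

theorem width_mono_right {c x y : ℝ} (hc : 0 ≤ c) (hx : 0 ≤ x) (hxy : x ≤ y) :
    width c x ≤ width c y :=
  Real.exp_le_exp.2 (mul_le_mul_of_nonneg_left (width_mono hx hxy) hc)

theorem width_double {c x y : ℝ} (hc : 0 ≤ c) (hx : 0 ≤ x) (hy : 0 ≤ y)
    (hxy : y + 16 ≤ (x + 16) ^ 2) : width c y ≤ width (2 * c) x := by
  unfold width
  apply Real.exp_le_exp.2
  have hs := exp_one_le_log_sixteen hx
  have hs0 : 0 < Real.log (x + 16) := lt_of_lt_of_le (Real.exp_pos 1) hs
  have hls := log16_pos hx
  have h1 : Real.log (y + 16) ≤ 2 * Real.log (x + 16) := by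
    have h2 := Real.log_le_log (by linarith only [hy]) hxy
    rw [Real.log_pow] at h2
    push_cast at h2
    exact h2
  have h3 := div_log_mono (exp_one_le_log_sixteen hy) h1
  have h4 : 2 * Real.log (x + 16) / Real.log (2 * Real.log (x + 16)) ≤
      2 * (Real.log (x + 16) / Real.log (Real.log (x + 16))) := by
    rw [← mul_div_assoc]
    apply div_le_div_of_nonneg_left (by positivity) (by linarith only [hls])
    exact Real.log_le_log hs0 (by linarith only [hs0])
  calc c * (Real.log (y + 16) / Real.log (Real.log (y + 16)))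
      ≤ c * (2 * (Real.log (x + 16) / Real.log (Real.log (x + 16)))) :=
        mul_le_mul_of_nonneg_left (h3.trans h4) hc
    _ = 2 * c * (Real.log (x + 16) / Real.log (Real.log (x + 16))) := by ring

theorem tendsto_width {c : ℝ} (hc : 0 < c) : Tendsto (width c) atTop atTop := by
  unfold width
  apply Real.tendsto_exp_atTop.comp
  apply Tendsto.const_mul_atTop hc
  exact (tendsto_div_log.comp Real.tendsto_log_atTop).comp
    (tendsto_atTop_add_const_right _ _ tendsto_id)

/-- **Confinement with the width function.** -/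
theorem scale_confinement {D : ℝ} (hD : 1 ≤ D) {ε : ℝ} (hε : 0 < ε) : ∃ c : ℝ, 0 < c ∧ c ≤ 1 / 4 ∧
    ∀ᶠ R : ℝ in atTop, ∀ (M : ℕ) (K : Fin M → Set ℂ), (M : ℝ) ≤ width c R →
    (∀ j, Convex ℝ (K j)) →
    ∀ (z w : {z : GaussianInt // Prime z}) (p : (moatGraph D).Walk z w),
      (∀ v ∈ p.support, NearBoundaries K (width c R) (GaussianInt.toComplex v)) →
      dist (GaussianInt.toComplex z) (GaussianInt.toComplex w) ≤ R ^ ε := by
  obtain ⟨C, hC, hconf⟩ := union_confinement
  have hD0 : 0 < D := by linarith only [hD]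
  set A : ℝ := C * D ^ C with hA
  have hA0 : 0 < A := by positivity
  set c : ℝ := min (1 / 4) (ε / (8 * A)) with hc
  have hc0 : 0 < c := by rw [hc]; positivity
  have hc1 : c ≤ 1 / 4 := min_le_left _ _
  have hc2 : c ≤ ε / (8 * A) := min_le_right _ _
  refine ⟨c, hc0, hc1, ?_⟩
  filter_upwards [eventually_radius c 16 0 hc0, eventually_ge_atTop 16] with R hR hR16
  obtain ⟨h1, h2, -⟩ := hR
  intro M K hM hK z w p hp
  have hR0 : 0 < R := by linarith only [hR16]
  set T : ℝ := Real.log (R + 16) with hT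
  have hTe : Real.exp 1 ≤ T := h2
  have hT0 : 0 < T := lt_of_lt_of_le (Real.exp_pos 1) hTe
  have hlT : 1 ≤ Real.log T := (Real.le_log_iff_exp_le hT0).2 hTe
  set k : ℕ := ⌈c * (T / Real.log T)⌉₊ with hk
  have hk1 : c * (T / Real.log T) ≤ k := Nat.le_ceil _
  have hk2 : 2 ≤ k := by
    have : (1 : ℝ) < k := lt_of_lt_of_le h1 hk1
    exact_mod_cast this
  have hk3 : (k : ℝ) ≤ 2 * (c * (T / Real.log T)) := by
    have := Nat.ceil_lt_add_one (show 0 ≤ c * (T / Real.log T) by (clear * - hc0 hT0 hlT; positivity))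
    rw [← hk] at this
    linarith only [h1, this]
  have hk4 : (k : ℝ) ≤ T := by
    have h5 : T / Real.log T ≤ T := div_le_self hT0.le hlT
    have h6 : c * (T / Real.log T) ≤ 1 / 4 * T :=
      mul_le_mul hc1 h5 (by (clear * - hT0 hlT; positivity)) (by norm_num)
    linarith only [hk3, h6, hT0]
  have hk0 : (0 : ℝ) < k := by linarith only [h1, hk1]
  have hlogk : Real.log k ≤ Real.log T := Real.log_le_log hk0 hk4
  have hwk : width c R ≤ Real.exp k := Real.exp_le_exp.2 hk1
  have hmain := hconf D hD k hk2 M K (hM.trans hwk) hK z w p (by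
    intro v hv
    obtain ⟨j, q, hq, hvq⟩ := hp v hv
    exact ⟨j, q, hq, hvq.trans hwk⟩)
  refine hmain.trans ?_
  have hexp : C * D ^ C * (k * Real.log k) ≤ ε / 4 * T := by
    rw [← hA]
    have hlogk0 : 0 ≤ Real.log k := Real.log_nonneg (by linarith only [h1, hk1])
    calc A * (k * Real.log k) ≤ A * ((2 * (c * (T / Real.log T))) * Real.log T) := by
          apply mul_le_mul_of_nonneg_left _ hA0.le
          exact mul_le_mul hk3 hlogk hlogk0 (by (clear * - hc0 hT0 hlT; positivity))
      _ = 2 * A * c * T := by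
          have : Real.log T ≠ 0 := by linarith only [hlT]
          (clear * - this hT0 hc0 hA0; field_simp)
      _ ≤ 2 * A * (ε / (8 * A)) * T := by
          apply mul_le_mul_of_nonneg_right _ hT0.le
          exact mul_le_mul_of_nonneg_left hc2 (by positivity)
      _ = ε / 4 * T := by field_simp; norm_num
  refine (Real.exp_le_exp.2 hexp).trans ?_
  have h6 : R + 16 ≤ R ^ 2 := by nlinarith only [hR16]
  have h7 : T ≤ 2 * Real.log R := by
    have h8 := Real.log_le_log (by linarith only [hR0]) h6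
    rw [Real.log_pow] at h8
    push_cast at h8
    exact h8
  have hlogR : 0 ≤ Real.log R := Real.log_nonneg (by linarith only [hR16])
  rw [Real.rpow_def_of_pos hR0]
  apply Real.exp_le_exp.2
  nlinarith only [h7, hε, hlogR]

/-- First exit of a walk from a sublevel set. -/
theorem exists_exit {D r : ℝ} (φ : {z : GaussianInt // Prime z} → ℝ)
    (hφ : ∀ a b, (moatGraph D).Adj a b → |φ a - φ b| ≤ D)
    {z w : {z : GaussianInt // Prime z}}
    (p : (moatGraph D).Walk z w) (hz : φ z ≤ r) (hw : r < φ w) :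
    ∃ (v : {z : GaussianInt // Prime z}) (q : (moatGraph D).Walk z v),
      r < φ v ∧ (∀ x ∈ q.support, x ∈ p.support) ∧ ∀ x ∈ q.support, φ x ≤ r + D := by
  induction p with
  | nil => exact absurd hz (not_le.2 hw)
  | @cons a b c hab p ih =>
    have hD : 0 ≤ D := (abs_nonneg _).trans (hφ a b hab)
    by_cases hb : φ b ≤ r
    · obtain ⟨v, q, h1, h2, h3⟩ := ih hb hw
      refine ⟨v, SimpleGraph.Walk.cons hab q, h1, ?_, ?_⟩
      · intro x hx
        rw [SimpleGraph.Walk.support_cons, List.mem_cons] at hx ⊢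
        rcases hx with hx | hx
        · exact Or.inl hx
        · exact Or.inr (h2 x hx)
      · intro x hx
        rw [SimpleGraph.Walk.support_cons, List.mem_cons] at hx
        rcases hx with hx | hx
        · rw [hx]; linarith only [hz, hD]
        · exact h3 x hx
    · refine ⟨b, SimpleGraph.Walk.cons hab SimpleGraph.Walk.nil, not_le.1 hb, ?_, ?_⟩
      · intro x hx
        rw [SimpleGraph.Walk.support_cons, SimpleGraph.Walk.support_nil, List.mem_cons,
          List.mem_singleton] at hx
        rw [SimpleGraph.Walk.support_cons, List.mem_cons]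
        rcases hx with hx | hx
        · exact Or.inl hx
        · rw [hx]; exact Or.inr p.start_mem_support
      · intro x hx
        rw [SimpleGraph.Walk.support_cons, SimpleGraph.Walk.support_nil, List.mem_cons,
          List.mem_singleton] at hx
        rcases hx with hx | hx
        · rw [hx]; linarith only [hz, hD]
        · rw [hx]
          have h6 := (abs_le.1 (hφ a b hab)).1
          linarith only [h6, hz]

/-- Finiteness of all components from a bound for the walks that start far out. -/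
theorem comps_finite {D D' : ℝ} (hDD : D ≤ D') (S : Set {z : GaussianInt // Prime z}) (R₁ : ℝ)
    (h : ∀ z ∈ S, R₁ ≤ ‖GaussianInt.toComplex z‖ → ∃ ρ : ℝ,
      ∀ (w : {z : GaussianInt // Prime z}) (p : (moatGraph D').Walk z w),
      (∀ v ∈ p.support, v ∈ S) →
      dist (GaussianInt.toComplex z) (GaussianInt.toComplex w) ≤ ρ)
    (K : ((moatGraph D).induce S).ConnectedComponent) : K.supp.Finite := by
  have hbdd : ∃ R : ℝ, ∀ w : S, w ∈ K.supp → ‖GaussianInt.toComplex w.1‖ ≤ R := by
    by_cases hex : ∃ v : S, v ∈ K.supp ∧ R₁ ≤ ‖GaussianInt.toComplex v.1‖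
    · obtain ⟨v, hv, hvR⟩ := hex
      obtain ⟨ρ, hρ⟩ := h v.1 v.2 hvR
      refine ⟨‖GaussianInt.toComplex v.1‖ + ρ, ?_⟩
      intro w hw
      rw [SimpleGraph.ConnectedComponent.mem_supp_iff] at hv hw
      have hvw : ((moatGraph D).induce S).Reachable v w := by
        rw [← SimpleGraph.ConnectedComponent.eq, hv, hw]
      obtain ⟨p⟩ := hvw
      obtain ⟨q, hq⟩ := induce_walk hDD S p
      have h1 := hρ w.1 q hq
      have h2 := norm_le_add_dist v.1.1 w.1.1
      linarith only [h1, h2]
    · push Not at hex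
      exact ⟨R₁, fun w hw => (hex w hw).le⟩
  obtain ⟨R, hR⟩ := hbdd
  exact ((finite_norm_le R).preimage Subtype.val_injective.injOn).subset fun w hw => hR w hw

/-- **Locally thin sets.** -/
theorem thin_components (D a : ℝ) (ha : 0 < a) : ∃ c : ℝ, 0 < c ∧
    ∀ (S : Set {z : GaussianInt // Prime z}) (R₀ : ℝ),
    (∀ z ∈ S, R₀ ≤ ‖GaussianInt.toComplex z‖ → ∃ (M : ℕ) (K : Fin M → Set ℂ),
      (M : ℝ) ≤ width c ‖GaussianInt.toComplex z‖ ∧ (∀ j, Convex ℝ (K j)) ∧
      ∀ v ∈ S, dist (GaussianInt.toComplex z) (GaussianInt.toComplex v) ≤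
          ‖GaussianInt.toComplex z‖ ^ a →
        NearBoundaries K (width c ‖GaussianInt.toComplex z‖) (GaussianInt.toComplex v)) →
    ∀ K : ((moatGraph D).induce S).ConnectedComponent, K.supp.Finite := by
  have hD' : 1 ≤ max D 1 := le_max_right _ _
  have hD0 : 0 < max D 1 := by linarith only [hD']
  obtain ⟨c, hc, -, hconf⟩ := scale_confinement hD' (half_pos ha)
  refine ⟨c, hc, ?_⟩
  intro S R₀ hS
  have hpow : ∀ᶠ R : ℝ in atTop, R ^ (a / 2) < R ^ a - max D 1 := by
    have h1 : Tendsto (fun R : ℝ => R ^ (a / 2)) atTop atTop := tendsto_rpow_atTop (half_pos ha)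
    filter_upwards [h1.eventually (eventually_gt_atTop (max D 1 + 1)), eventually_gt_atTop 0]
      with R hR hR0
    have h2 : R ^ a = R ^ (a / 2) * R ^ (a / 2) := by
      rw [← Real.rpow_add hR0]; ring_nf
    rw [h2]
    nlinarith only [hR, hD0]
  obtain ⟨R₂, hR₂⟩ := eventually_atTop.1 (hconf.and hpow)
  apply comps_finite (le_max_left D 1) S (max R₀ R₂)
  intro z hz hzR
  refine ⟨‖GaussianInt.toComplex z‖ ^ a - max D 1, ?_⟩
  intro w p hp
  obtain ⟨hc1, hc2⟩ := hR₂ ‖GaussianInt.toComplex z‖ ((le_max_right _ _).trans hzR)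
  obtain ⟨M, K, hM, hK, hnear⟩ := hS z hz ((le_max_left _ _).trans hzR)
  by_contra hcon
  push Not at hcon
  obtain ⟨v, q, hv, hq1, hq2⟩ := exists_exit
    (fun v => dist (GaussianInt.toComplex z) (GaussianInt.toComplex v))
    (fun a b hab => level_dist z a b hab) p (r := ‖GaussianInt.toComplex z‖ ^ a - max D 1) (by
      rw [dist_self]
      have h1 : 0 ≤ ‖GaussianInt.toComplex z‖ ^ (a / 2) := by positivity
      linarith only [h1, hc2]) hcon
  have h1 := hc1 M K hM hK z v q (by
    intro x hx
    apply hnear x (hp x (hq1 x hx))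
    have h2 := hq2 x hx
    linarith only [h2])
  linarith only [h1, hv, hc2]

end Vale.Agent.P015.H807
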