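import Vale.Agent.P015.H807.Ballistic

/-!
Finite self-avoiding walks with backtracking at most `exp k` relative to a convex set: speed at
least `exp (-(C D ^ C k log k))`.
-/

open Finset Filter Topology

namespace Vale.Agent.P015.H807

open Vale.Agent.P015

/-- The walk formed by a piece of a finite path. -/
theorem piece_walk {D : ℝ} {γ : ℕ → {z : GaussianInt // Prime z}} {n : ℕ}
    (hγ : ∀ i < n, (moatGraph D).Adj (γ i) (γ (i + 1))) (i l : ℕ) (hil : i + l ≤ n) :
    ∃ p : (moatGraph D).Walk (γ i) (γ (i + l)), ∀ v ∈ p.support, ∃ l' ≤ l, v = γ (i + l') := by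
  induction l with
  | zero =>
    refine ⟨SimpleGraph.Walk.nil, ?_⟩
    intro v hv
    rw [SimpleGraph.Walk.support_nil, List.mem_singleton] at hv
    exact ⟨0, le_rfl, hv⟩
  | succ l ih =>
    obtain ⟨p, hp⟩ := ih (by omega)
    refine ⟨p.concat (hγ (i + l) (by omega)), ?_⟩
    intro v hv
    rw [SimpleGraph.Walk.support_concat, List.mem_append,
      List.mem_singleton] at hv
    rcases hv with hv | hv
    · obtain ⟨l', hl, hvl⟩ := hp v hv
      exact ⟨l', by omega, hvl⟩
    · exact ⟨l + 1, le_rfl, hv⟩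

/-- **Bounded backtracking, finite and effective form.** -/
theorem walk_speed : ∃ C : ℝ, 0 < C ∧ ∀ D : ℝ, 1 ≤ D → ∀ k : ℕ, 2 ≤ k →
    ∀ K : Set ℂ, Convex ℝ K → K.Nonempty →
    ∀ (n : ℕ) (γ : ℕ → {z : GaussianInt // Prime z}), Set.InjOn γ (Set.Iic n) →
    (∀ i < n, (moatGraph D).Adj (γ i) (γ (i + 1))) →
    (∀ i ≤ n, GaussianInt.toComplex (γ i).1 ∉ K) →
    (∀ i j, i ≤ j → j ≤ n → Metric.infDist (GaussianInt.toComplex (γ i).1) K - Real.exp k ≤
      Metric.infDist (GaussianInt.toComplex (γ j).1) K) →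
    Metric.infDist (GaussianInt.toComplex (γ 0).1) K
        + n * Real.exp (-(C * D ^ C * (k * Real.log k))) - 1 - Real.exp k ≤
      Metric.infDist (GaussianInt.toComplex (γ n).1) K := by
  classical
  obtain ⟨C, hC, hconf⟩ := union_confinement
  refine ⟨6 * C + 3, by positivity, ?_⟩
  intro D hD k hk2 K hK hne n γ hinj hadj hout hback
  have hk2R : (2 : ℝ) ≤ k := by exact_mod_cast hk2
  have hconf' := hconf D hD (k + 1) (by omega)
  set ρ : ℝ := Real.exp (C * D ^ C * (((k + 1 : ℕ) : ℝ) * Real.log ((k + 1 : ℕ) : ℝ))) with hρ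
  have hlogk : 0.69 ≤ Real.log k := by
    have h1 : Real.log 2 ≤ Real.log k := Real.log_le_log (by norm_num) hk2R
    have h2 := Real.log_two_gt_d9
    linarith only [h1, h2]
  have hDC : 1 ≤ D ^ C := Real.one_le_rpow hD hC.le
  have hkk : 1 ≤ (k : ℝ) * Real.log k := by nlinarith only [hk2R, hlogk]
  have hρ1 : 1 ≤ ρ := by
    rw [hρ]
    apply Real.one_le_exp
    have : 0 ≤ Real.log ((k + 1 : ℕ) : ℝ) := Real.log_natCast_nonneg _
    positivity
  obtain ⟨N, hNlo, hNhi⟩ : ∃ N : ℕ, (2 * ρ + 1) ^ 2 < N ∧ (N : ℝ) ≤ (2 * ρ + 1) ^ 2 + 1 := by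
    refine ⟨⌊(2 * ρ + 1) ^ 2⌋₊ + 1, ?_, ?_⟩
    · push_cast
      exact Nat.lt_floor_add_one _
    · push_cast
      have := Nat.floor_le (a := (2 * ρ + 1) ^ 2) (by positivity)
      linarith only [this]
  have hN0R : (0 : ℝ) < N := lt_of_le_of_lt (by positivity) hNlo
  have hN0 : 0 < N := by exact_mod_cast hN0R
  -- the size of `N`
  have hNexp : (N : ℝ) ≤ Real.exp ((6 * C + 3) * D ^ (6 * C + 3) * (k * Real.log k)) := by
    have h1 : (N : ℝ) ≤ 10 * ρ ^ 2 := by nlinarith only [hNhi, hρ1]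
    have h2 : (10 : ℝ) ≤ Real.exp 3 := by
      have h3 := Real.add_one_le_exp (1 : ℝ)
      have h4 : Real.exp 3 = Real.exp 1 ^ 3 := by rw [← Real.exp_nat_mul]; norm_num
      have h5 := Real.exp_one_gt_d9
      have h6 : (2.7 : ℝ) ≤ Real.exp 1 := by linarith only [h5]
      rw [h4]
      calc (10 : ℝ) ≤ 2.7 ^ 3 := by norm_num
        _ ≤ Real.exp 1 ^ 3 := pow_le_pow_left₀ (by norm_num) h6 3
    have h3 : ρ ^ 2 = Real.exp (2 * (C * D ^ C *
        (((k + 1 : ℕ) : ℝ) * Real.log ((k + 1 : ℕ) : ℝ)))) := by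
      rw [hρ, ← Real.exp_nat_mul]; norm_num
    have h4 : ((k + 1 : ℕ) : ℝ) * Real.log ((k + 1 : ℕ) : ℝ) ≤ 3 * (k * Real.log k) := by
      have h5 : ((k + 1 : ℕ) : ℝ) ≤ (k : ℝ) ^ 2 := by push_cast; nlinarith only [hk2R]
      have h6 : Real.log ((k + 1 : ℕ) : ℝ) ≤ 2 * Real.log k := by
        have h7 := Real.log_le_log (by positivity : (0 : ℝ) < ((k + 1 : ℕ) : ℝ)) h5
        rw [Real.log_pow] at h7
        exact_mod_cast h7
      have h8 : ((k + 1 : ℕ) : ℝ) ≤ 3 / 2 * k := by push_cast; linarith only [hk2R]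
      calc ((k + 1 : ℕ) : ℝ) * Real.log ((k + 1 : ℕ) : ℝ)
          ≤ (3 / 2 * k) * (2 * Real.log k) :=
            mul_le_mul h8 h6 (Real.log_natCast_nonneg _) (by positivity)
        _ = 3 * (k * Real.log k) := by ring
    calc (N : ℝ) ≤ 10 * ρ ^ 2 := h1
      _ ≤ Real.exp 3 * ρ ^ 2 := mul_le_mul_of_nonneg_right h2 (by positivity)
      _ = Real.exp (3 + 2 * (C * D ^ C *
          (((k + 1 : ℕ) : ℝ) * Real.log ((k + 1 : ℕ) : ℝ)))) := by rw [h3, ← Real.exp_add]
      _ ≤ Real.exp ((6 * C + 3) * D ^ (6 * C + 3) * (k * Real.log k)) := by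
          apply Real.exp_le_exp.2
          have h9 : D ^ C ≤ D ^ (6 * C + 3) :=
            Real.rpow_le_rpow_of_exponent_le hD (by linarith only [hC])
          have h10 : 1 ≤ D ^ C * (k * Real.log k) := by nlinarith only [hDC, hkk]
          have h11 : C * D ^ C * (((k + 1 : ℕ) : ℝ) * Real.log ((k + 1 : ℕ) : ℝ)) ≤
              C * D ^ C * (3 * (k * Real.log k)) := mul_le_mul_of_nonneg_left h4 (by positivity)
          have h12 : (6 * C + 3) * (D ^ C * (k * Real.log k)) ≤
              (6 * C + 3) * (D ^ (6 * C + 3) * (k * Real.log k)) := by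
            apply mul_le_mul_of_nonneg_left _ (by positivity)
            exact mul_le_mul_of_nonneg_right h9 (by linarith only [hkk])
          nlinarith only [h10, h11, h12]
  set F : ℕ → ℝ := fun m => Metric.infDist (GaussianInt.toComplex (γ m).1) K with hF
  have hek : Real.exp k + 1 ≤ Real.exp ((k + 1 : ℕ) : ℝ) := by
    push_cast
    rw [Real.exp_add]
    have h1 : 1 ≤ Real.exp k := Real.one_le_exp (by linarith only [hk2R])
    have h2 := Real.add_one_le_exp (1 : ℝ)
    nlinarith only [h1, h2]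
  have hek0 : 0 < Real.exp k := Real.exp_pos _
  -- progress in `N` steps
  have hprog : ∀ i, i + N ≤ n → ∃ j, j ≤ i + N ∧ i ≤ j ∧ F i + 1 ≤ F j := by
    intro i hiN
    by_contra hcon
    push Not at hcon
    obtain ⟨K', hK', hlev⟩ := exists_level_set hK hne (le_max_right (F i - Real.exp k) 0)
    have hnear : ∀ l ≤ N, ∃ q ∈ frontier K',
        dist (GaussianInt.toComplex (γ (i + l)).1) q ≤ Real.exp ((k + 1 : ℕ) : ℝ) := by
      intro l hl
      have h1 : F (i + l) < F i + 1 := hcon (i + l) (by omega) (by omega)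
      have h2 : F i - Real.exp k ≤ F (i + l) := hback i (i + l) (by omega) (by omega)
      have h3 : 0 ≤ F (i + l) := Metric.infDist_nonneg
      obtain ⟨q, hq, hdq⟩ := hlev _ (hout (i + l) (by omega)) (max_le h2 h3)
      refine ⟨q, hq, hdq.trans ?_⟩
      have h4 : F i - Real.exp k ≤ max (F i - Real.exp k) 0 := le_max_left _ _
      have h6 : Metric.infDist (GaussianInt.toComplex (γ (i + l)).1) K = F (i + l) := rfl
      rw [h6]
      linarith only [h1, h4, hek]
    have hclose : ∀ l ≤ N, dist (GaussianInt.toComplex (γ i).1)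
        (GaussianInt.toComplex (γ (i + l)).1) ≤ ρ := by
      intro l hl
      obtain ⟨p, hp⟩ := piece_walk hadj i l (by omega)
      refine hconf' 1 (fun _ => K') (by
        rw [Nat.cast_one]; exact Real.one_le_exp (Nat.cast_nonneg _)) (fun _ => hK') _ _ p ?_
      intro v hv
      obtain ⟨l', hl', rfl⟩ := hp v hv
      obtain ⟨q, hq, hdq⟩ := hnear l' (hl'.trans hl)
      exact ⟨0, q, hq, hdq⟩
    set X : Finset {z : GaussianInt // Prime z} := (Finset.range N).image (fun l => γ (i + l))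
      with hX
    have hXcard : X.card = N := by
      rw [hX, Finset.card_image_of_injOn, Finset.card_range]
      intro a ha c hc hac
      rw [Finset.coe_range, Set.mem_Iio] at ha hc
      have := hinj (Set.mem_Iic.2 (by omega : i + a ≤ n)) (Set.mem_Iic.2 (by omega : i + c ≤ n))
        hac
      omega
    have hcount := crude_count X ((γ i).1.re) ((γ i).1.im) ρ (by linarith only [hρ1]) (by
      intro v hv
      rw [hX, Finset.mem_image] at hv
      obtain ⟨l, hl, rfl⟩ := hv
      rw [Finset.mem_range] at hl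
      have h1 := hclose l hl.le
      rw [dist_comm, dist_eq_norm] at h1
      have h2 := Complex.abs_re_le_norm (GaussianInt.toComplex (γ (i + l)).1 -
        GaussianInt.toComplex (γ i).1)
      have h3 := Complex.abs_im_le_norm (GaussianInt.toComplex (γ (i + l)).1 -
        GaussianInt.toComplex (γ i).1)
      rw [Complex.sub_re, ← GaussianInt.intCast_re, ← GaussianInt.intCast_re] at h2
      rw [Complex.sub_im, ← GaussianInt.intCast_im, ← GaussianInt.intCast_im] at h3
      exact ⟨h2.trans h1, h3.trans h1⟩)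
    rw [hXcard] at hcount
    linarith only [hcount, hNlo]
  -- many rounds
  have hrounds : ∀ m : ℕ, m * N ≤ n → ∃ i, i ≤ m * N ∧ F 0 + m ≤ F i := by
    intro m
    induction m with
    | zero => exact fun _ => ⟨0, by omega, by push_cast; linarith only []⟩
    | succ m ih =>
      intro hm
      rw [Nat.succ_mul] at hm
      obtain ⟨i, hi, hFi⟩ := ih (by omega)
      obtain ⟨j, hj1, -, hj3⟩ := hprog i (by omega)
      refine ⟨j, by rw [Nat.succ_mul]; omega, ?_⟩
      push_cast
      linarith only [hFi, hj3]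
  obtain ⟨i, hi, hFi⟩ := hrounds (n / N) (Nat.div_mul_le_self n N)
  have h1 : i ≤ n := hi.trans (Nat.div_mul_le_self n N)
  have h2 : F i - Real.exp k ≤ F n := hback i n h1 le_rfl
  have h3 : (n : ℝ) / N ≤ ((n / N : ℕ) : ℝ) + 1 := by
    rw [div_le_iff₀ hN0R]
    have h4 : n ≤ (n / N + 1) * N := by
      have := Nat.lt_div_mul_add (a := n) hN0
      rw [Nat.add_mul, one_mul]
      omega
    exact_mod_cast h4
  have h5 : (n : ℝ) * Real.exp (-((6 * C + 3) * D ^ (6 * C + 3) * (k * Real.log k))) ≤ n / N := by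
    rw [Real.exp_neg, div_eq_mul_inv]
    apply mul_le_mul_of_nonneg_left _ (Nat.cast_nonneg n)
    exact inv_anti₀ hN0R hNexp
  have h7 : Metric.infDist (GaussianInt.toComplex (γ 0).1) K = F 0 := rfl
  have h8 : Metric.infDist (GaussianInt.toComplex (γ n).1) K = F n := rfl
  rw [h7, h8]
  linarith only [h2, h3, h5, hFi]

end Vale.Agent.P015.H807
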