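import Vale.Agent.P015.Bdl.B1

/-!
Counting the starting points of `k`-paths in a long piece of a thin strip.
-/

open Finset

namespace Vale.Agent.P015.H807

open Vale.Agent.P015

/-- One block: count of the starts of `k`-paths in a block of a strip. -/
theorem block_num {k : ℕ} (hk : 2 ≤ k) {D Δ y E mu H δ : ℝ} (hD : 1 ≤ D) (hΔD : 4 * D ≤ Δ)
    (hΔy : Δ ≤ y) (hy : 16 ≤ y) (N : ℕ) (hE0 : 0 ≤ E) (hE : E ≤ y ^ N) (hδ : 0 ≤ δ)
    (hH : H = y ^ (N + 14 * k + 4)) (hmu : k * (2 * Real.log Δ + 8) ≤ mu) :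
    Δ ^ k * (((2 * (4 * Real.exp k) + 3) * δ) * (2 * (H + 1) * Real.exp (-mu) + E)) ≤
      (H * δ) * (Real.exp (-(4 * k)) / (32 * D ^ 2)) := by
  have hD0 : 0 < D := by linarith only [hD]
  have hΔ0 : 0 < Δ := by linarith only [hD, hΔD]
  have hΔ1 : 1 ≤ Δ := by linarith only [hD, hΔD]
  have hy0 : 0 < y := by linarith only [hy]
  have hy1 : 1 ≤ y := by linarith only [hy]
  have hH0 : 0 < H := by rw [hH]; positivity
  have hH1 : 1 ≤ H := by rw [hH]; exact one_le_pow₀ hy1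
  have hk2 : (2 : ℝ) ≤ k := by exact_mod_cast hk
  have hexp1 : 1 ≤ Real.exp k := Real.one_le_exp (Nat.cast_nonneg k)
  have hW : 2 * (4 * Real.exp k) + 3 ≤ 11 * Real.exp k := by linarith only [hexp1]
  have hΔk : 16 * D ^ 2 ≤ Δ ^ k := by
    have h1 : Δ ^ 2 ≤ Δ ^ k := pow_le_pow_right₀ hΔ1 hk
    have h2 : (4 * D) ^ 2 ≤ Δ ^ 2 := pow_le_pow_left₀ (by positivity) hΔD 2
    linarith only [h1, h2]
  -- the main term
  have h1 : Δ ^ k * Real.exp (-mu) ≤ (16 * D ^ 2)⁻¹ * Real.exp (-(8 * k)) := by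
    have h4 : Δ ^ (2 * k) = Δ ^ k * Δ ^ k := by rw [two_mul, pow_add]
    have h2 : Real.exp (-mu) ≤ (Δ ^ k * Δ ^ k)⁻¹ * Real.exp (-(8 * k)) := by
      have h2' : Real.exp (-mu) ≤ Real.exp (-(k * (2 * Real.log Δ + 8))) :=
        Real.exp_le_exp.2 (by linarith only [hmu])
      refine le_trans h2' (le_of_eq ?_)
      have h3 : -(k * (2 * Real.log Δ + 8)) =
          -(((2 * k : ℕ) : ℝ) * Real.log Δ) + -(8 * k) := by
        push_cast; ring
      rw [h3, Real.exp_add, Real.exp_neg (((2 * k : ℕ) : ℝ) * Real.log Δ), Real.exp_nat_mul,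
        Real.exp_log hΔ0, h4]
    calc Δ ^ k * Real.exp (-mu) ≤ Δ ^ k * ((Δ ^ k * Δ ^ k)⁻¹ * Real.exp (-(8 * k))) :=
          mul_le_mul_of_nonneg_left h2 (by positivity)
      _ = (Δ ^ k)⁻¹ * Real.exp (-(8 * k)) := by
          have hne : Δ ^ k ≠ 0 := by positivity
          field_simp
      _ ≤ (16 * D ^ 2)⁻¹ * Real.exp (-(8 * k)) := by
          apply mul_le_mul_of_nonneg_right _ (Real.exp_pos _).le
          exact inv_anti₀ (by positivity) hΔk
  have he3 : Real.exp k * Real.exp (-(8 * k)) ≤ Real.exp (-(4 * k)) * (1 / 400) := by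
    have h5 : Real.exp k * Real.exp (-(8 * k)) = Real.exp (-(4 * k)) * Real.exp (-(3 * k)) := by
      rw [← Real.exp_add, ← Real.exp_add]; ring_nf
    rw [h5]
    apply mul_le_mul_of_nonneg_left _ (Real.exp_pos _).le
    rw [Real.exp_neg, one_div]
    apply inv_anti₀ (by norm_num)
    have h6 : Real.exp 6 ≤ Real.exp (3 * k) := Real.exp_le_exp.2 (by linarith only [hk2])
    have h7 : (400 : ℝ) ≤ Real.exp 6 := by
      have h8 : Real.exp 6 = Real.exp 1 ^ 6 := by rw [← Real.exp_nat_mul]; norm_num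
      have h9 := Real.exp_one_gt_d9
      rw [h8]
      have h10 : (2.718 : ℝ) ^ 6 ≤ Real.exp 1 ^ 6 :=
        pow_le_pow_left₀ (by norm_num) (by linarith only [h9]) 6
      refine le_trans (by norm_num) h10
    linarith only [h6, h7]
  -- the error term
  have hey : Real.exp k ≤ y ^ k :=
    le_trans (exp_le_three_pow k) (pow_le_pow_left₀ (by norm_num) (by linarith only [hy]) k)
  have hDy : D ≤ y := by linarith only [hΔD, hΔy, hD0]
  have h8 : Δ ^ k * ((11 * Real.exp k) * E) ≤ H * (Real.exp (-(4 * k)) / (64 * D ^ 2)) := by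
    rw [mul_div_assoc', le_div_iff₀ (by positivity), Real.exp_neg, ← div_eq_mul_inv,
      le_div_iff₀ (Real.exp_pos _)]
    have h9 : Real.exp (4 * k) ≤ y ^ (4 * k) := by
      have h10 : Real.exp (4 * (k : ℝ)) = (Real.exp k) ^ 4 := by
        rw [← Real.exp_nat_mul]; norm_num
      rw [h10, mul_comm 4 k, pow_mul]
      exact pow_le_pow_left₀ (Real.exp_pos _).le hey 4
    have h11 : Δ ^ k ≤ y ^ k := pow_le_pow_left₀ hΔ0.le hΔy k
    have h12 : 64 * D ^ 2 ≤ y ^ 4 := by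
      have h13 : D ^ 2 ≤ y ^ 2 := pow_le_pow_left₀ hD0.le hDy 2
      have h14 : (64 : ℝ) ≤ y ^ 2 := by nlinarith only [hy]
      calc 64 * D ^ 2 ≤ y ^ 2 * y ^ 2 := mul_le_mul h14 h13 (by positivity) (by positivity)
        _ = y ^ 4 := by ring
    have h15 : (11 : ℝ) ≤ y ^ k := le_trans (by linarith only [hy]) (le_self_pow₀ hy1 (by omega))
    calc Δ ^ k * ((11 * Real.exp k) * E) * (64 * D ^ 2) * Real.exp (4 * k)
        ≤ y ^ k * ((y ^ k * y ^ k) * y ^ N) * y ^ 4 * y ^ (4 * k) := by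
          apply mul_le_mul _ h9 (Real.exp_pos _).le (by positivity)
          apply mul_le_mul _ h12 (by positivity) (by positivity)
          apply mul_le_mul h11 _ (by positivity) (by positivity)
          apply mul_le_mul _ hE hE0 (by positivity)
          exact mul_le_mul h15 hey (Real.exp_pos _).le (by positivity)
      _ = y ^ (N + 7 * k + 4) := by ring
      _ ≤ H := by rw [hH]; exact pow_le_pow_right₀ hy1 (by omega)
  have h16 : Δ ^ k * ((11 * Real.exp k) * (2 * (H + 1) * Real.exp (-mu))) ≤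
      H * (Real.exp (-(4 * k)) / (64 * D ^ 2)) := by
    calc Δ ^ k * ((11 * Real.exp k) * (2 * (H + 1) * Real.exp (-mu)))
        = 22 * (H + 1) * Real.exp k * (Δ ^ k * Real.exp (-mu)) := by ring
      _ ≤ 22 * (H + H) * Real.exp k * ((16 * D ^ 2)⁻¹ * Real.exp (-(8 * k))) := by
          apply mul_le_mul _ h1 (by positivity) (by positivity)
          apply mul_le_mul_of_nonneg_right _ (Real.exp_pos _).le
          linarith only [hH1]
      _ = 44 * H * (16 * D ^ 2)⁻¹ * (Real.exp k * Real.exp (-(8 * k))) := by ring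
      _ ≤ 44 * H * (16 * D ^ 2)⁻¹ * (Real.exp (-(4 * k)) * (1 / 400)) :=
          mul_le_mul_of_nonneg_left he3 (by positivity)
      _ ≤ H * (Real.exp (-(4 * k)) / (64 * D ^ 2)) := by
          have h17 : 0 < Real.exp (-(4 * (k : ℝ))) := Real.exp_pos _
          have h17' : H * (Real.exp (-(4 * (k : ℝ))) / (64 * D ^ 2)) =
              H * Real.exp (-(4 * (k : ℝ))) / (64 * D ^ 2) := (mul_div_assoc _ _ _).symm
          rw [h17', le_div_iff₀ (by positivity)]
          have h18 : 44 * H * (16 * D ^ 2)⁻¹ * (Real.exp (-(4 * (k : ℝ))) * (1 / 400)) *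
              (64 * D ^ 2) = (44 / 100) * (H * Real.exp (-(4 * (k : ℝ)))) := by
            field_simp
            norm_num
          rw [h18]
          have h19 : 0 < H * Real.exp (-(4 * (k : ℝ))) := by positivity
          linarith only [h19]
  have h20 : 0 ≤ 2 * (H + 1) * Real.exp (-mu) + E := by positivity
  calc Δ ^ k * (((2 * (4 * Real.exp k) + 3) * δ) * (2 * (H + 1) * Real.exp (-mu) + E))
      ≤ Δ ^ k * (((11 * Real.exp k) * δ) * (2 * (H + 1) * Real.exp (-mu) + E)) := by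
        apply mul_le_mul_of_nonneg_left _ (by positivity)
        apply mul_le_mul_of_nonneg_right _ h20
        exact mul_le_mul_of_nonneg_right hW hδ
    _ = δ * (Δ ^ k * ((11 * Real.exp k) * (2 * (H + 1) * Real.exp (-mu))) +
          Δ ^ k * ((11 * Real.exp k) * E)) := by ring
    _ ≤ δ * (H * (Real.exp (-(4 * k)) / (64 * D ^ 2)) +
          H * (Real.exp (-(4 * k)) / (64 * D ^ 2))) :=
        mul_le_mul_of_nonneg_left (add_le_add h16 h8) hδ
    _ = (H * δ) * (Real.exp (-(4 * k)) / (32 * D ^ 2)) := by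
        have h21 : ∀ x : ℝ, x / (64 * D ^ 2) + x / (64 * D ^ 2) = x / (32 * D ^ 2) := by
          intro x
          rw [← add_div, div_eq_div_iff (by positivity) (by positivity)]
          ring
        rw [← mul_add, h21]; ring

/-- Size of the shifts of a pattern. -/
theorem psum_norm_le {k m : ℕ} (s : Fin k → GaussianInt) (hs : ∀ i, s i ∈ stepBox m) (j : ℕ)
    (hj : j < k) : ‖GaussianInt.toComplex (psum s j)‖ ≤ 2 * k * m := by
  have h := psum_bound s hs 0 j (Nat.zero_le j) hj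
  have h0 : psum s 0 = 0 := by simp [psum]
  rw [h0, sub_zero] at h
  have h1 : |((psum s j).re : ℝ)| ≤ k * m := by exact_mod_cast h.1
  have h2 : |((psum s j).im : ℝ)| ≤ k * m := by exact_mod_cast h.2
  have h3 := Complex.norm_le_abs_re_add_abs_im (GaussianInt.toComplex (psum s j))
  rw [← GaussianInt.intCast_re, ← GaussianInt.intCast_im] at h3
  linarith only [h1, h2, h3]

/-- **Strip count.** A piece of length `L ≥ B` of a strip of half width `4 e ^ k` contains at most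
`L e ^ (-4k) / (8 D ^ 2)` starts of `k`-paths with norm `> B`. -/
theorem strip_starts : ∃ C : ℝ, 0 < C ∧ ∀ D : ℝ, 1 ≤ D → ∀ k : ℕ, 2 ≤ k →
    ∃ B : ℕ, (B : ℝ) ≤ Real.exp (C * D ^ C * (k * Real.log k)) ∧ 400 ≤ B ∧ D ≤ B ∧
      12 * Real.exp k ≤ B ∧ k * D ≤ B ∧
      ∀ u₁ u₂ : ℝ, u₁ ^ 2 + u₂ ^ 2 = 1 → ∀ s0 h0 L : ℝ, (B : ℝ) ≤ L →
      ∀ X : Finset {z : GaussianInt // Prime z},
      (∀ z ∈ X, s0 ≤ sco u₁ u₂ z ∧ sco u₁ u₂ z ≤ s0 + L ∧ |hco u₁ u₂ z - h0| ≤ 4 * Real.exp k ∧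
        StartsPath D k z ∧ (B : ℝ) < ‖GaussianInt.toComplex z‖) →
      (X.card : ℝ) ≤ L * (Real.exp (-(4 * k)) / (8 * D ^ 2)) := by
  classical
  obtain ⟨C₀, hC₀, hmert⟩ := mertens_mod4
  set C₁ : ℝ := 6000 * Real.exp (14 * C₀) + 4 * C₀ + 2 with hC₁
  have hC₁0 : 0 < C₁ := by positivity
  refine ⟨7 * C₁, by positivity, ?_⟩
  intro D hD k hk
  have hD0 : 0 < D := by linarith only [hD]
  have hm1 : 1 ≤ ⌊D⌋₊ := Nat.le_floor (by simpa only [Nat.cast_one] using hD)
  have hmD : ((⌊D⌋₊ : ℕ) : ℝ) ≤ D := Nat.floor_le (by linarith only [hD])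
  have hDm : D < (⌊D⌋₊ : ℝ) + 1 := Nat.lt_floor_add_one D
  have hpat : ∀ z : {z : GaussianInt // Prime z}, StartsPath D k z →
      ∃ s : Fin k → GaussianInt, (∀ i, s i ∈ stepBox ⌊D⌋₊) ∧
      (∀ i < k, ∀ j < k, psum s i = psum s j → i = j) ∧
      ∀ j < k, Prime ((z : GaussianInt) + psum s j) := fun z hz =>
    pattern_of_startsPath hz
  generalize ⌊D⌋₊ = m at *
  set lam : ℝ := 2 * Real.log (((2 * m + 1) ^ 2 : ℕ) : ℝ) + 8 with hlam
  have hlam0 : 8 ≤ lam := by
    have : 0 ≤ Real.log (((2 * m + 1) ^ 2 : ℕ) : ℝ) := by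
      apply Real.log_nonneg
      have : 1 ≤ (2 * m + 1) ^ 2 := Nat.one_le_pow _ _ (by omega)
      exact_mod_cast this
    linarith only [this]
  obtain ⟨K, hK1, hK2, hK3⟩ := hmert lam (by linarith only [hlam0])
  obtain ⟨hy16, hy4, hΔ9, hky, hΔy, h4m, h2km⟩ := nat_facts hk hm1
  have hK4 := hK3 ((2 * k * m) ^ 2) (by omega)
  set r : ℕ := 2 * ⌈4 * ((k : ℝ) * (lam + 1))⌉₊ with hr
  have hk0 : (2 : ℝ) ≤ k := by exact_mod_cast hk
  have hr1 : 8 * ((k : ℝ) * (lam + 1)) ≤ r := by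
    rw [hr]; push_cast
    have := Nat.le_ceil (4 * ((k : ℝ) * (lam + 1)))
    linarith only [this]
  have hr2 : (r : ℝ) ≤ 10 * (k * (lam + 1)) := by
    rw [hr]; push_cast
    have h1 : (⌈4 * ((k : ℝ) * (lam + 1))⌉₊ : ℝ) < 4 * ((k : ℝ) * (lam + 1)) + 1 :=
      Nat.ceil_lt_add_one (by (clear * - hk; positivity))
    nlinarith only [hk0, h1, hlam0]
  have hreven : Even r := ⟨_, by rw [hr]; ring⟩
  have hrpos : 1 ≤ r := by
    have : (1 : ℝ) ≤ r := by nlinarith only [hk0, hr1, hlam0]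
    exact_mod_cast this
  clear_value r
  have hfin := final_num C₀ hC₀ hD hk m hm1 hmD K lam hlam hK2 r hr2
  obtain ⟨P, hPmem, hPcard, hmu1, hmu2⟩ := exists_primes (by linarith only [hlam0]) _ K hK4 k
  clear_value lam
  have h2kmy : 2 * k * m ≤ (2 * k * m) ^ 2 := Nat.le_self_pow (by norm_num) _
  generalize (2 * k * m) ^ 2 = y at *
  have hyR : (16 : ℝ) ≤ y := by exact_mod_cast hy16
  have hy1 : (1 : ℝ) ≤ y := by linarith only [hyR]
  have hy0 : (0 : ℝ) < y := by linarith only [hyR]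
  have h4D : 4 * D ≤ (((2 * m + 1) ^ 2 : ℕ) : ℝ) := by
    have h2 : (4 * ((m : ℝ) + 1)) ≤ (((2 * m + 1) ^ 2 : ℕ) : ℝ) := by exact_mod_cast h4m
    linarith only [hDm, h2]
  have hΔyR : (((2 * m + 1) ^ 2 : ℕ) : ℝ) ≤ y := by exact_mod_cast hΔy
  have hkyR : 1 + (k : ℝ) ≤ y := by exact_mod_cast hky
  have hE := err_bound (r := r) hy1 (Nat.cast_nonneg P.card) hPcard hkyR
  set N : ℕ := (K + 1) * r with hN
  have hKN : K ≤ N := by
    have : K * 1 ≤ (K + 1) * r := Nat.mul_le_mul (by omega) hrpos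
    omega
  set M : ℕ := N + 14 * k + 4 with hM
  -- the block length parameter
  set H : ℕ := y ^ M with hH
  have hHR : (H : ℝ) = (y : ℝ) ^ (N + 14 * k + 4) := by rw [hH]; push_cast; rfl
  have hyM : y ≤ y ^ M := Nat.le_self_pow (by omega) y
  have hH2 : 2 ≤ H := by rw [hH]; omega
  have hdouble : (((2 * (2 * k + 2 + (K + 1) * r) + 2 : ℕ)) : ℝ) * Real.log y ≤
      C₁ * D ^ C₁ * (k * Real.log k) := hfin
  have hBbound : (y : ℝ) ^ (2 * M + 2) ≤ Real.exp (7 * C₁ * D ^ (7 * C₁) * (k * Real.log k)) := by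
    rw [← Real.log_le_iff_le_exp (by positivity), Real.log_pow]
    have hlogy : 0 ≤ Real.log y := Real.log_nonneg hy1
    have h1 : ((2 * M + 2 : ℕ) : ℝ) ≤ 7 * (((2 * (2 * k + 2 + (K + 1) * r) + 2 : ℕ)) : ℝ) := by
      have : 2 * M + 2 ≤ 7 * (2 * (2 * k + 2 + (K + 1) * r) + 2) := by
        rw [← hN, hM]; omega
      exact_mod_cast this
    have hlogk : 0 ≤ (k : ℝ) * Real.log k := by
      have : 0 ≤ Real.log k := Real.log_nonneg (by linarith only [hk0])
      positivity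
    have h2 : D ^ C₁ ≤ D ^ (7 * C₁) :=
      Real.rpow_le_rpow_of_exponent_le hD (by linarith only [hC₁0])
    calc ((2 * M + 2 : ℕ) : ℝ) * Real.log y
        ≤ 7 * (((2 * (2 * k + 2 + (K + 1) * r) + 2 : ℕ)) : ℝ) * Real.log y :=
          mul_le_mul_of_nonneg_right h1 hlogy
      _ = 7 * ((((2 * (2 * k + 2 + (K + 1) * r) + 2 : ℕ)) : ℝ) * Real.log y) := by ring
      _ ≤ 7 * (C₁ * D ^ C₁ * (k * Real.log k)) := by linarith only [hdouble]
      _ = 7 * C₁ * D ^ C₁ * (k * Real.log k) := by ring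
      _ ≤ 7 * C₁ * D ^ (7 * C₁) * (k * Real.log k) := by
          apply mul_le_mul_of_nonneg_right _ hlogk
          exact mul_le_mul_of_nonneg_left h2 (by positivity)
  have hH4 : y ^ 4 ≤ H := by rw [hH]; exact Nat.pow_le_pow_right (by omega) (by omega)
  refine ⟨y ^ (2 * M + 2), by push_cast; exact hBbound, ?_, ?_, ?_, ?_, ?_⟩
  · have h1 : y ^ 4 ≤ y ^ (2 * M + 2) := Nat.pow_le_pow_right (by omega) (by omega)
    have h2 : 16 ^ 4 ≤ y ^ 4 := Nat.pow_le_pow_left hy16 4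
    norm_num at h2
    omega
  · have h1 : (y : ℝ) ≤ (y : ℝ) ^ (2 * M + 2) := le_self_pow₀ hy1 (by omega)
    push_cast
    linarith only [h1, hΔyR, h4D, hD0]
  · push_cast
    have h1 : Real.exp k ≤ (y : ℝ) ^ k :=
      le_trans (exp_le_three_pow k) (pow_le_pow_left₀ (by norm_num) (by linarith only [hyR]) k)
    calc 12 * Real.exp k ≤ y * (y : ℝ) ^ k :=
          mul_le_mul (by linarith only [hyR]) h1 (Real.exp_pos _).le hy0.le
      _ = (y : ℝ) ^ (k + 1) := by ring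
      _ ≤ (y : ℝ) ^ (2 * M + 2) := pow_le_pow_right₀ hy1 (by omega)
  · push_cast
    have h1 : (k : ℝ) ≤ y := by linarith only [hkyR]
    have h2 : D ≤ y := by linarith only [hΔyR, h4D, hD0]
    calc (k : ℝ) * D ≤ y * y := mul_le_mul h1 h2 hD0.le hy0.le
      _ = (y : ℝ) ^ 2 := by ring
      _ ≤ (y : ℝ) ^ (2 * M + 2) := pow_le_pow_right₀ hy1 (by omega)
  intro u₁ u₂ hu s0 h0 L hL X hX
  push_cast at hL hX
  obtain ⟨a, b, hab, hd1, hd2, he⟩ := exists_direction u₁ u₂ hu H hH2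
  set δ : ℝ := u₁ * a + u₂ * b with hδ
  have hδ0 : 0 < δ := by linarith only [hd1]
  have hH0 : (0 : ℝ) < H := by exact_mod_cast (by omega : 0 < H)
  set θ : ℝ := Real.exp (-(4 * k)) / (32 * D ^ 2) with hθ
  have hθ0 : 0 < θ := by positivity
  have hlen0 : 0 < (H : ℝ) * δ := by positivity
  have hlenL : (H : ℝ) * δ ≤ L := by
    have h1 : (H : ℝ) * δ ≤ 2 * (H : ℝ) ^ 2 := by nlinarith only [hd2, hH0]
    have h2 : 2 * (H : ℝ) ^ 2 ≤ (y : ℝ) ^ (2 * M + 2) := by
      have h3 : (H : ℝ) = (y : ℝ) ^ M := by rw [hH]; push_cast; rfl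
      rw [h3]
      calc 2 * ((y : ℝ) ^ M) ^ 2 ≤ (y : ℝ) ^ 2 * ((y : ℝ) ^ M) ^ 2 := by
            apply mul_le_mul_of_nonneg_right _ (by positivity)
            nlinarith only [hyR]
        _ = (y : ℝ) ^ (2 * M + 2) := by ring
    linarith only [h1, h2, hL]
  -- one block
  have hblock : ∀ s1 : ℝ, ∀ Y : Finset {z : GaussianInt // Prime z},
      (∀ z ∈ Y, s1 ≤ sco u₁ u₂ z ∧ sco u₁ u₂ z ≤ s1 + H * δ ∧
        |hco u₁ u₂ z - h0| ≤ 4 * Real.exp k ∧
        StartsPath D k z ∧ (y : ℝ) ^ (2 * M + 2) < ‖GaussianInt.toComplex z‖) →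
      (Y.card : ℝ) ≤ (H * δ) * θ := by
    intro s1 Y hY
    have hcount := pattern_count P (fun p hp => ⟨(hPmem p hp).1, (hPmem p hp).2.1⟩) (k := k)
      (m := m) (by
        intro p hp
        have h1 := (hPmem p hp).2.2.1
        omega) ((y ^ K : ℕ) : ℤ) (fun p hp => by exact_mod_cast (hPmem p hp).2.2.2) hab r hreven
      (by linarith only [hr1, hmu2]) u₁ u₂ hu H (by omega) hd1 he s1 h0 (4 * Real.exp k)
      (by positivity) (Y.image (fun z : {z : GaussianInt // Prime z} => (z : GaussianInt)))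
      (by
        intro x hx
        rw [Finset.mem_image] at hx
        obtain ⟨z, hz, rfl⟩ := hx
        exact ⟨(hY z hz).1, (hY z hz).2.1, (hY z hz).2.2.1⟩)
      (by
        intro x hx
        rw [Finset.mem_image] at hx
        obtain ⟨z, hz, rfl⟩ := hx
        obtain ⟨s, hs1, hs2, hs3⟩ := hpat z (hY z hz).2.2.2.1
        refine ⟨s, hs1, hs2, fun j hj => ⟨hs3 j hj, ?_⟩⟩
        have h1 := psum_norm_le s hs1 j hj
        have h2 := (hY z hz).2.2.2.2
        have h3 : ‖GaussianInt.toComplex z‖ ≤ ‖GaussianInt.toComplex ((z : GaussianInt) +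
            psum s j)‖ + ‖GaussianInt.toComplex (psum s j)‖ := by
          rw [map_add]
          have := norm_sub_le (GaussianInt.toComplex z + GaussianInt.toComplex (psum s j))
            (GaussianInt.toComplex (psum s j))
          rwa [add_sub_cancel_right] at this
        have h4 : ((y : ℝ) ^ K) + 2 * k * m ≤ (y : ℝ) ^ (2 * M + 2) := by
          have h5 : (2 * (k : ℝ) * m) ≤ y := by exact_mod_cast h2kmy
          have h6 : (y : ℝ) ^ K ≤ (y : ℝ) ^ (2 * M + 1) := pow_le_pow_right₀ hy1 (by omega)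
          have h7 : (y : ℝ) ≤ (y : ℝ) ^ (2 * M + 1) := le_self_pow₀ hy1 (by omega)
          have h8 : (y : ℝ) ^ (2 * M + 2) = y * (y : ℝ) ^ (2 * M + 1) := by ring
          have h9 : 0 < (y : ℝ) ^ (2 * M + 1) := by positivity
          rw [h8]
          nlinarith only [h5, h6, h7, h9, hyR]
        have h5 : (y : ℝ) ^ K < ‖GaussianInt.toComplex ((z : GaussianInt) + psum s j)‖ := by
          linarith only [h1, h2, h3, h4]
        have h6 : ((y : ℝ) ^ K) ^ 2 < ‖GaussianInt.toComplex ((z : GaussianInt) +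
            psum s j)‖ ^ 2 := pow_lt_pow_left₀ h5 (by positivity) (by norm_num)
        rw [← Complex.normSq_eq_norm_sq, ← GaussianInt.intCast_real_norm] at h6
        exact_mod_cast h6)
    rw [Finset.card_image_of_injective _ Subtype.val_injective] at hcount
    refine le_trans hcount ?_
    have hnum := block_num hk (D := D) (Δ := (((2 * m + 1) ^ 2 : ℕ) : ℝ)) (y := y)
      (E := (1 + k * (P.card : ℝ)) ^ r) (mu := ∑ p ∈ P, (k : ℝ) / p) (H := H) (δ := δ) hD h4D
      hΔyR hyR N (by (clear * - hk; positivity)) hE hδ0.le hHR (by rw [← hlam]; exact hmu1)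
    push_cast at hnum ⊢
    exact hnum
  -- cover by blocks
  set n : ℕ := ⌈L / (H * δ)⌉₊ with hn
  have hL0 : 0 < L := lt_of_lt_of_le hlen0 hlenL
  have hn1 : L / (H * δ) ≤ n := Nat.le_ceil _
  have hn2 : (n : ℝ) + 1 ≤ 3 * (L / (H * δ)) := by
    have h1 := Nat.ceil_lt_add_one (show 0 ≤ L / (H * δ) by positivity)
    rw [← hn] at h1
    have h2 : 1 ≤ L / (H * δ) := by rw [le_div_iff₀ hlen0]; linarith only [hlenL]
    linarith only [h1, h2]
  have hcover : X ⊆ (Finset.range (n + 1)).biUnion (fun i : ℕ => X.filter (fun z =>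
      s0 + i * (H * δ) ≤ sco u₁ u₂ z.1 ∧ sco u₁ u₂ z.1 ≤ s0 + i * (H * δ) + H * δ)) := by
    intro z hz
    rw [Finset.mem_biUnion]
    obtain ⟨g1, g2, -⟩ := hX z hz
    set i : ℕ := ⌊(sco u₁ u₂ z - s0) / (H * δ)⌋₊ with hi
    have h0' : 0 ≤ (sco u₁ u₂ z - s0) / (H * δ) := div_nonneg (by linarith only [g1]) hlen0.le
    have h1 : (i : ℝ) ≤ (sco u₁ u₂ z - s0) / (H * δ) := Nat.floor_le h0'
    have h2 : (sco u₁ u₂ z - s0) / (H * δ) < i + 1 := Nat.lt_floor_add_one _
    rw [le_div_iff₀ hlen0] at h1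
    rw [div_lt_iff₀ hlen0] at h2
    refine ⟨i, ?_, ?_⟩
    · rw [Finset.mem_range]
      have h3 : (i : ℝ) ≤ L / (H * δ) := by
        rw [le_div_iff₀ hlen0]; linarith only [h1, g2]
      have h4 : (i : ℝ) ≤ n := le_trans h3 hn1
      have h5 : i ≤ n := by exact_mod_cast h4
      omega
    · rw [Finset.mem_filter]
      exact ⟨hz, by linarith only [h1], by linarith only [h2]⟩
  have hsum : (X.card : ℝ) ≤ ∑ i ∈ Finset.range (n + 1), ((X.filter (fun z =>
      s0 + i * (H * δ) ≤ sco u₁ u₂ z.1 ∧ sco u₁ u₂ z.1 ≤ s0 + i * (H * δ) + H * δ)).card : ℝ) := by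
    have h1 := le_trans (Finset.card_le_card hcover) Finset.card_biUnion_le
    exact_mod_cast h1
  refine le_trans hsum ?_
  refine le_trans (Finset.sum_le_sum (g := fun _ => (H * δ) * θ) (fun i _ => ?_)) ?_
  · apply hblock (s0 + i * (H * δ))
    intro z hz
    rw [Finset.mem_filter] at hz
    exact ⟨hz.2.1, hz.2.2, (hX z hz.1).2.2⟩
  · rw [Finset.sum_const, Finset.card_range, nsmul_eq_mul]
    push_cast
    have h1 : (3 * (L / (H * δ))) * (H * δ * θ) = 3 * (L * θ) := by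
      field_simp
    have h2 : L * (Real.exp (-(4 * k)) / (8 * D ^ 2)) = 4 * (L * θ) := by
      rw [hθ]; field_simp; norm_num
    have h3 : ((n : ℝ) + 1) * (H * δ * θ) ≤ (3 * (L / (H * δ))) * (H * δ * θ) :=
      mul_le_mul_of_nonneg_right hn2 (by positivity)
    have h4 : 0 < L * θ := by positivity
    linarith only [h1, h2, h3, h4]

end Vale.Agent.P015.H807
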